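import Vale.Agent.P216.E2L.Line
import Vale.Agent.P216.D907.Chain
import Vale.Agent.P216.H670.Unif

/-!
# The abstract fibre step of the Leray zigzag

`FibN π A X X' O1 O2 φ ψ`: over a small neighbourhood of `x ∈ A`, the set `X'` is compared with
the model fibres `O2 ⊆ O1` by maps `φ x : X' near x → O2`, `ψ x : O1 → π ⁻¹ x ∩ X`, with moduli of
continuity and contiguity chains independent of `x`; `ψ x ∘ φ x ~ id`.
`FibR`: maps `ψ' x : O3 → π ⁻¹ x ∩ X'` with `φ x ∘ ψ' x ~ id : O3 → O1`.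
`FibC`: `φ x ~ φ y : X' near x, y → O1`.
From this: `NullB`, `LocB` and `LineB` of `E2L`.
-/

set_option linter.all false

open Set

namespace Vale.Agent.P216.H892

open Sl PS E2L D907

variable {k : Type} [Field k] {M E E' : Type}
  [PseudoMetricSpace M] [PseudoMetricSpace E] [PseudoMetricSpace E']

/-- Chains of contiguous maps `Zs → Y`, with a modulus `δ`, `r` which does not depend on the
length. -/
abbrev CtgC {Z Y' : Type} [PseudoMetricSpace Z] [PseudoMetricSpace Y'] (Y : Set Y') (Zs : Set Z)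
    (δ r : ℝ) : (Z → Y') → (Z → Y') → Prop :=
  Relation.ReflTransGen (Ctg Y Zs δ r)

theorem CtgC.mono {Z Y' : Type} [PseudoMetricSpace Z] [PseudoMetricSpace Y'] {Y Y₁ : Set Y'}
    {Zs Z₁ : Set Z} {δ δ₁ r r₁ : ℝ} {f₀ f₁ : Z → Y'} (h : CtgC Y Zs δ r f₀ f₁) (hY : Y ⊆ Y₁)
    (hZ : Z₁ ⊆ Zs) (hδ : δ₁ ≤ δ) (hr : r ≤ r₁) : CtgC Y₁ Z₁ δ₁ r₁ f₀ f₁ :=
  Relation.ReflTransGen.mono (fun _ _ h => h.mono hY hZ hδ hr) _ _ h

theorem CtgC.symm {Z Y' : Type} [PseudoMetricSpace Z] [PseudoMetricSpace Y'] {Y : Set Y'}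
    {Zs : Set Z} {δ r : ℝ} {f₀ f₁ : Z → Y'} (h : CtgC Y Zs δ r f₀ f₁) : CtgC Y Zs δ r f₁ f₀ := by
  induction h with
  | refl => exact Relation.ReflTransGen.refl
  | tail _ h ih => exact Relation.ReflTransGen.head h.symm ih

/-- The points of `X` over the `δ`-ball of `x`. -/
def nbh (π : E → M) (X : Set E) (x : M) (δ : ℝ) : Set E := {w | w ∈ X ∧ dist x (π w) < δ}

theorem nbh_mono {π : E → M} {X : Set E} {x : M} {δ δ' : ℝ} (h : δ ≤ δ') :
    nbh π X x δ ⊆ nbh π X x δ' := fun _ hw => ⟨hw.1, hw.2.trans_le h⟩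

/-- The fibre comparison, `id ~ ψ x ∘ φ x`. -/
structure FibN (π : E → M) (A : Set M) (X X' : Set E) (O1 O2 : Set E') (φ : M → E → E')
    (ψ : M → E' → E) : Prop where
  h21 : O2 ⊆ O1
  ψ_mem : ∀ x ∈ A, ∀ v ∈ O1, ψ x v ∈ X ∧ π (ψ x v) = x
  ψ_mod : ∀ r > 0, ∃ δ > 0, ∀ x ∈ A, ∀ v ∈ O1, ∀ v' ∈ O1, dist v v' < δ →
    dist (ψ x v) (ψ x v') < r
  φ_mod : ∀ r > 0, ∃ δ > 0, ∀ x ∈ A, ∀ w ∈ nbh π X' x δ, φ x w ∈ O2 ∧
    ∀ w' ∈ nbh π X' x δ, dist w w' < δ → dist (φ x w) (φ x w') < r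
  ψφ : ∀ r > 0, ∃ δ > 0, ∀ x ∈ A, CtgC (nbh π X x r) (nbh π X' x δ) δ r id
    (fun w => ψ x (φ x w))

/-- The fibre comparison, `id ~ φ x ∘ ψ x`. -/
structure FibR (π : E → M) (A : Set M) (X' : Set E) (O1 O3 : Set E') (φ : M → E → E')
    (ψ : M → E' → E) : Prop where
  ψ_mem : ∀ x ∈ A, ∀ v ∈ O3, ψ x v ∈ X' ∧ π (ψ x v) = x
  ψ_mod : ∀ r > 0, ∃ δ > 0, ∀ x ∈ A, ∀ v ∈ O3, ∀ v' ∈ O3, dist v v' < δ →
    dist (ψ x v) (ψ x v') < r
  φψ : ∀ r > 0, ∃ δ > 0, ∀ x ∈ A, CtgC O1 O3 δ r id (fun v => φ x (ψ x v))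

/-- The compatibility `φ x ~ φ y`. -/
def FibC (π : E → M) (A : Set M) (X' : Set E) (O1 : Set E') (φ : M → E → E') : Prop :=
  ∀ r > 0, ∃ δ > 0, ∀ x ∈ A, ∀ y ∈ A, dist x y < δ →
    CtgC O1 (nbh π X' x δ ∩ nbh π X' y δ) δ r (φ x) (φ y)

variable {π : E → M} {A : Set M} {X X' : Set E} {O1 O2 O3 : Set E'} {φ : M → E → E'}
  {ψ : M → E' → E} {q : ℕ}

theorem SmL.map' {Z Y' : Type} [PseudoMetricSpace Z] [PseudoMetricSpace Y'] {Zs : Set Z}
    {Y : Set Y'} {δ r : ℝ} {F : Z → Y'} {l : List Z} (h : SmL Zs δ l)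
    (hF : ∀ w ∈ Zs, F w ∈ Y ∧ ∀ w' ∈ Zs, dist w w' < δ → dist (F w) (F w') < r) :
    SmL Y r (l.map F) := by
  refine ⟨fun y hy => ?_, fun y hy z hz => ?_⟩
  · obtain ⟨w, hw, rfl⟩ := List.mem_map.1 hy
    exact (hF w (h.1 w hw)).1
  · obtain ⟨w, hw, rfl⟩ := List.mem_map.1 hy
    obtain ⟨w', hw', rfl⟩ := List.mem_map.1 hz
    exact (hF w (h.1 w hw)).2 w' (h.1 w' hw') (h.2 w hw w' hw')

/-- Small double lists give small lists of `nbh`. -/
theorem Dom.nbh {x : M} {xs : List M} {ws : List E} {r : ℝ} (h : Dom π A X r (x :: xs) ws) :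
    SmL (nbh π X x r) r ws :=
  ⟨fun w hw => ⟨h.2.1.1 w hw, h.2.2 x (by simp) w hw⟩, h.2.1.2⟩

/-- Small lists of `nbh` give small double lists. -/
theorem dom_of_nbh {x : M} {xs : List M} {ws : List E} {r r₁ : ℝ} (hx : SmL A r₁ (x :: xs))
    (h : SmL (H892.nbh π X x r₁) r ws) (h1 : r₁ + r₁ ≤ r) (h0 : 0 < r₁) :
    Dom π A X r (x :: xs) ws := by
  refine ⟨hx.mono subset_rfl (by linarith), ⟨fun w hw => (h.1 w hw).1, h.2⟩,
    fun y hy w hw => ?_⟩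
  have e1 := hx.2 y hy x (by simp)
  have e2 := (h.1 w hw).2
  have e3 := dist_triangle y x (π w)
  linarith

namespace FibN

theorem φ_mem (S : FibN π A X X' O1 O2 φ ψ) : ∃ δ > 0, ∀ x ∈ A, ∀ w ∈ nbh π X' x δ,
    φ x w ∈ O2 := by
  obtain ⟨δ, hδ, h⟩ := S.φ_mod 1 one_pos
  exact ⟨δ, hδ, fun x hx w hw => (h x hx w hw).1⟩

/-- The first half: the pull back `f ∘ ψ x` is closed at a uniform scale. -/
theorem pull_closed (S : FibN π A X X' O1 O2 φ ψ) (q : ℕ) {r : ℝ} (hr : 0 < r) :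
    ∃ ε > 0, ∀ (x : M) (xs : List M), SmL A ε (x :: xs) → ∀ f : List E → k,
      (∀ ws, ws.length = q + 2 → Dom π A X r (x :: xs) ws → dl f ws = 0) →
      ∀ l, l.length = q + 2 → SmL O1 ε l → dl (fun l => f (l.map (ψ x))) l = 0 := by
  obtain ⟨ε, hε, h⟩ := S.ψ_mod r hr
  refine ⟨min ε r, lt_min hε hr, fun x xs hx f hf l hl hs => ?_⟩
  rw [dl_map]
  have hxA : x ∈ A := hx.1 x (by simp)
  refine hf _ (by rw [List.length_map]; exact hl) ⟨hx.mono subset_rfl (min_le_right _ _), ?_,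
    fun y hy w hw => ?_⟩
  · exact SmL.map' (hs.mono subset_rfl (min_le_left _ _)) fun v hv => ⟨(S.ψ_mem x hxA v hv).1,
      fun v' hv' hd => h x hxA v hv v' hv' hd⟩
  · obtain ⟨v, hv, rfl⟩ := List.mem_map.1 hw
    rw [(S.ψ_mem x hxA v (hs.1 v hv)).2]
    exact (hx.2 y hy x (by simp)).trans_le (min_le_right _ _)

/-- The second half: `f` and its pull back by `ψ x ∘ φ x` are cohomologous at a uniform scale. -/
theorem pull_back (S : FibN π A X X' O1 O2 φ ψ) (q : ℕ) {r : ℝ} (hr : 0 < r) :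
    ∃ ε > 0, ∀ (x : M) (xs : List M), SmL A ε (x :: xs) → ∀ f : List E → k,
      (∀ ws, ws.length = q + 2 → Dom π A X r (x :: xs) ws → dl f ws = 0) →
      ∃ g : List E → k, (q = 0 → ∀ l, g l = 0) ∧ ∀ l, l.length = q + 1 →
        SmL (nbh π X' x ε) ε l → f l = f ((l.map (φ x)).map (ψ x)) + dl g l := by
  have hr2 : 0 < r / 2 := by linarith
  obtain ⟨ε, hε, h⟩ := S.ψφ (r / 2) hr2
  refine ⟨min ε (r / 2), lt_min hε hr2, fun x xs hx f hf => ?_⟩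
  have hxA : x ∈ A := hx.1 x (by simp)
  obtain ⟨g, hg0, hg⟩ := ctg_chain (f := f) (n := q) (fun l hl hs => hf l hl
    (dom_of_nbh (r := r) (r₁ := r / 2) (hx.mono subset_rfl (min_le_right _ _))
      (hs.mono subset_rfl (by linarith)) (by linarith) hr2)) (h x hxA)
  refine ⟨fun l => -1 * g l, fun hq l => by
    show -1 * g l = 0
    rw [hg0 hq, mul_zero], fun l hl hs => ?_⟩
  have e := hg l hl (hs.mono (fun w hw => ⟨hw.1, hw.2.trans_le (min_le_left _ _)⟩)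
    (min_le_left _ _))
  rw [dl_mul_left, ← e, List.map_id, List.map_map]
  show _ = f (l.map (fun w => ψ x (φ x w))) + -1 * (f (l.map (fun w => ψ x (φ x w))) - f l)
  ring

/-- A relation on `O2` at a uniform scale pulls back. -/
theorem pull_rel (S : FibN π A X X' O1 O2 φ ψ) (q : ℕ) {ε : ℝ} (hε : 0 < ε) :
    ∃ δ > 0, ∀ x ∈ A, ∀ F G : List E' → k, (∀ l, l.length = q + 1 → SmL O2 ε l →
      F l = dl G l) → ∀ l, l.length = q + 1 → SmL (nbh π X' x δ) δ l →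
        F (l.map (φ x)) = dl (fun l => G (l.map (φ x))) l := by
  obtain ⟨δ, hδ, h⟩ := S.φ_mod ε hε
  refine ⟨δ, hδ, fun x hx F G hF l hl hs => ?_⟩
  rw [dl_map]
  exact hF _ (by rw [List.length_map]; exact hl) (SmL.map' hs fun w hw => h x hx w hw)

/-- **The fibre cohomology dies, `q ≥ 1`.** -/
theorem nullB (S : FibN π A X X' O1 O2 φ ψ) (hO : IsCompact O2)
    (HN : ∀ F : List E' → k, CocL O1 q F → ExL O2 q F) : NullB π A X X' k q := by
  intro r hr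
  obtain ⟨ε₁, hε₁, h1⟩ := S.pull_closed (k := k) q hr
  obtain ⟨ε₂, hε₂, h2⟩ := S.pull_back (k := k) q hr
  obtain ⟨ε₃, hε₃, h3⟩ := H670.Unif.unif (k := k) hO q hε₁
  obtain ⟨ε₄, hε₄, h4⟩ := S.pull_rel (k := k) q hε₃
  refine ⟨min ε₁ (min ε₂ ε₄), lt_min hε₁ (lt_min hε₂ hε₄), fun x xs hx f hf => ?_⟩
  have hxA : x ∈ A := hx.1 x (by simp)
  have hc := h1 x xs (hx.mono subset_rfl (min_le_left _ _)) f hf
  obtain ⟨g₂, -, hg₂⟩ := h2 x xs (hx.mono subset_rfl ((min_le_right _ _).trans (min_le_left _ _))) f hf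
  obtain ⟨g, -, hg⟩ := h3 (fun l => f (l.map (ψ x)))
    (fun l hl hs => hc l hl (hs.mono S.h21 le_rfl)) (HN _ ⟨ε₁, hε₁, hc⟩)
  refine ⟨fun l => g (l.map (φ x)) + g₂ l, fun ws hw hD => ?_⟩
  have e1 := Dom.nbh hD
  have e2 := hg₂ ws hw (e1.mono (fun w hw => ⟨hw.1, hw.2.trans_le ((min_le_right _ _).trans
    (min_le_left _ _))⟩) ((min_le_right _ _).trans (min_le_left _ _)))
  have e3 := h4 x hxA _ g hg ws hw (e1.mono (fun w hw => ⟨hw.1, hw.2.trans_le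
    ((min_le_right _ _).trans (min_le_right _ _))⟩) ((min_le_right _ _).trans (min_le_right _ _)))
  rw [Sl.dl_add, ← e3, e2]

/-- **The fibre cohomology in degree `0`.** -/
theorem nullB_zero (S : FibN π A X X' O1 O2 φ ψ)
    (H0 : ∀ F : List E' → k, CocL O1 0 F → ∃ c : k, ∀ v ∈ O2, F [v] = c) :
    NullB π A X X' k 0 := by
  intro r hr
  obtain ⟨ε₁, hε₁, h1⟩ := S.pull_closed (k := k) 0 hr
  obtain ⟨ε₂, hε₂, h2⟩ := S.pull_back (k := k) 0 hr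
  obtain ⟨ε₄, hε₄, h4⟩ := S.φ_mem
  refine ⟨min ε₁ (min ε₂ ε₄), lt_min hε₁ (lt_min hε₂ hε₄), fun x xs hx f hf => ?_⟩
  have hxA : x ∈ A := hx.1 x (by simp)
  have hc := h1 x xs (hx.mono subset_rfl (min_le_left _ _)) f hf
  obtain ⟨g₂, -, hg₂⟩ := h2 x xs (hx.mono subset_rfl ((min_le_right _ _).trans (min_le_left _ _))) f hf
  obtain ⟨c, hcc⟩ := H0 _ ⟨ε₁, hε₁, hc⟩
  refine ⟨fun l => (fun _ => c) l + g₂ l, fun ws hw hD => ?_⟩
  obtain ⟨w, rfl⟩ : ∃ w, ws = [w] := List.length_eq_one_iff.1 hw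
  have e1 := Dom.nbh hD
  have e2 := hg₂ [w] hw (e1.mono (fun w hw => ⟨hw.1, hw.2.trans_le ((min_le_right _ _).trans
    (min_le_left _ _))⟩) ((min_le_right _ _).trans (min_le_left _ _)))
  have e3 := hcc (φ x w) (h4 x hxA w ⟨(e1.1 w (by simp)).1, (e1.1 w (by simp)).2.trans_le
    ((min_le_right _ _).trans (min_le_right _ _))⟩)
  have e4 : dl (fun _ : List E => c) [w] = c := dl_one _ _
  rw [Sl.dl_add, e2, e4]
  exact congrArg (· + dl g₂ [w]) e3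

/-- **Exact on the vertical fibre implies exact near the fibre** (`x` fixed, `xs` near `x`). -/
theorem locB (S : FibN π A X X' O1 O2 φ ψ) (hO : IsCompact O2) (q : ℕ) :
    ∀ r > 0, ∃ r' > 0, ∀ (x : M) (xs : List M), SmL A r' (x :: xs) → ∀ f : List E → k,
      (∀ ws, ws.length = q + 2 → Dom π A X r (x :: xs) ws → dl f ws = 0) →
      ExL {w | w ∈ X ∧ π w = x} q f → ∃ g : List E → k, (q = 0 → ∀ l, g l = 0) ∧
        ∀ ws, ws.length = q + 1 → Dom π A X' r' (x :: xs) ws → f ws = dl g ws := by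
  intro r hr
  obtain ⟨ε₁, hε₁, h1⟩ := S.pull_closed (k := k) q hr
  obtain ⟨ε₂, hε₂, h2⟩ := S.pull_back (k := k) q hr
  obtain ⟨ε₃, hε₃, h3⟩ := H670.Unif.unif (k := k) hO q hε₁
  obtain ⟨ε₄, hε₄, h4⟩ := S.pull_rel (k := k) q hε₃
  refine ⟨min ε₁ (min ε₂ ε₄), lt_min hε₁ (lt_min hε₂ hε₄), fun x xs hx f hf he => ?_⟩
  have hxA : x ∈ A := hx.1 x (by simp)
  have hc := h1 x xs (hx.mono subset_rfl (min_le_left _ _)) f hf
  obtain ⟨g₂, hg₂0, hg₂⟩ := h2 x xs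
    (hx.mono subset_rfl ((min_le_right _ _).trans (min_le_left _ _))) f hf
  have hE : ExL O2 q fun l => f (l.map (ψ x)) := by
    obtain ⟨g, hg0, ε, hε, hg⟩ := he
    obtain ⟨δ, hδ, h⟩ := S.ψ_mod ε hε
    refine ⟨fun l => g (l.map (ψ x)), fun hq l => hg0 hq _, δ, hδ, fun l hl hs => ?_⟩
    rw [dl_map]
    exact hg _ (by rw [List.length_map]; exact hl) (SmL.map' hs fun v hv =>
      ⟨S.ψ_mem x hxA v (S.h21 hv), fun v' hv' hd => h x hxA v (S.h21 hv) v' (S.h21 hv') hd⟩)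
  obtain ⟨g, hg0, hg⟩ := h3 (fun l => f (l.map (ψ x)))
    (fun l hl hs => hc l hl (hs.mono S.h21 le_rfl)) hE
  refine ⟨fun l => g (l.map (φ x)) + g₂ l, fun hq l => ?_, fun ws hw hD => ?_⟩
  · show g (l.map (φ x)) + g₂ l = 0
    rw [hg0 hq, hg₂0 hq, add_zero]
  have e1 := Dom.nbh hD
  have e2 := hg₂ ws hw (e1.mono (fun w hw => ⟨hw.1, hw.2.trans_le ((min_le_right _ _).trans
    (min_le_left _ _))⟩) ((min_le_right _ _).trans (min_le_left _ _)))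
  have e3 := h4 x hxA _ g hg ws hw (e1.mono (fun w hw => ⟨hw.1, hw.2.trans_le
    ((min_le_right _ _).trans (min_le_right _ _))⟩) ((min_le_right _ _).trans (min_le_right _ _)))
  rw [Sl.dl_add, ← e3, e2]

/-- **The fibre cohomology is a line**, `q ≥ 1`. -/
theorem lineB (S : FibN π A X X' O1 O2 φ ψ) {ψ' : M → E' → E} (R : FibR π A X' O1 O3 φ ψ')
    (C : FibC π A X' O1 φ) (hO : IsCompact O2) (hq : q ≠ 0)
    {v0 : List E' → k} (hv : CocL O1 q v0)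
    (HL : ∀ F : List E' → k, CocL O1 q F → ∃ c : k, ExL O2 q fun l => F l - c * v0 l)
    (Hne : ¬ ExL O3 q v0) : LineB π A X X' q fun x l => v0 (l.map (φ x)) := by
  obtain ⟨ε₀, hε₀, h0⟩ := hv
  refine ⟨?_, ?_, ?_, ?_⟩
  · -- closed
    obtain ⟨δ, hδ, h⟩ := S.φ_mod ε₀ hε₀
    refine ⟨δ, hδ, fun x ws hw hD => ?_⟩
    have hxA : x ∈ A := hD.1.1 x (by simp)
    rw [dl_map]
    exact h0 _ (by rw [List.length_map]; exact hw)
      ((SmL.map' (Dom.nbh hD) fun w hw => h x hxA w hw).mono S.h21 le_rfl)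
  · -- compatible
    obtain ⟨δ, hδ, h⟩ := C ε₀ hε₀
    have key : ∀ x y : M, ∃ g : List E → k, ∀ ws, ws.length = q + 1 →
        Dom π A X' δ [x, y] ws → v0 (ws.map (φ y)) - v0 (ws.map (φ x)) = dl g ws := by
      intro x y
      by_cases hc : x ∈ A ∧ y ∈ A ∧ dist x y < δ
      · obtain ⟨g, -, hg⟩ := ctg_chain (f := v0) (n := q) h0 (h x hc.1 y hc.2.1 hc.2.2)
        refine ⟨g, fun ws hw hD => hg ws hw ⟨fun w hw => ⟨⟨hD.2.1.1 w hw, ?_⟩,
          ⟨hD.2.1.1 w hw, ?_⟩⟩, hD.2.1.2⟩⟩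
        · exact hD.2.2 x (by simp) w hw
        · exact hD.2.2 y (by simp) w hw
      · exact ⟨fun _ => 0, fun ws hw hD => absurd ⟨hD.1.1 x (by simp), hD.1.1 y (by simp),
          hD.1.2 x (by simp) y (by simp)⟩ hc⟩
    choose g hg using key
    exact ⟨g, δ, hδ, hg⟩
  · -- span
    intro r hr
    obtain ⟨ε₁, hε₁, h1⟩ := S.pull_closed (k := k) q hr
    obtain ⟨ε₂, hε₂, h2⟩ := S.pull_back (k := k) q hr
    obtain ⟨ε₃, hε₃, h3⟩ := H670.Unif.unif (k := k) hO q (lt_min hε₁ hε₀)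
    obtain ⟨ε₄, hε₄, h4⟩ := S.pull_rel (k := k) q hε₃
    refine ⟨min ε₁ (min ε₂ ε₄), lt_min hε₁ (lt_min hε₂ hε₄), fun x xs hx f hf => ?_⟩
    have hxA : x ∈ A := hx.1 x (by simp)
    have hc := h1 x xs (hx.mono subset_rfl (min_le_left _ _)) f hf
    obtain ⟨g₂, -, hg₂⟩ := h2 x xs
      (hx.mono subset_rfl ((min_le_right _ _).trans (min_le_left _ _))) f hf
    obtain ⟨c, hcE⟩ := HL _ ⟨ε₁, hε₁, hc⟩
    obtain ⟨g, -, hg⟩ := h3 (fun l => f (l.map (ψ x)) - c * v0 l) (fun l hl hs => by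
      rw [dl_sub, dl_mul_left, hc l hl (hs.mono S.h21 (min_le_left _ _)),
        h0 l hl (hs.mono S.h21 (min_le_right _ _)), mul_zero, sub_zero]) hcE
    refine ⟨c, fun l => g (l.map (φ x)) + g₂ l, fun ws hw hD => ?_⟩
    have e1 := Dom.nbh hD
    have e2 := hg₂ ws hw (e1.mono (fun w hw => ⟨hw.1, hw.2.trans_le ((min_le_right _ _).trans
      (min_le_left _ _))⟩) ((min_le_right _ _).trans (min_le_left _ _)))
    have e3 := h4 x hxA _ g hg ws hw (e1.mono (fun w hw => ⟨hw.1, hw.2.trans_le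
      ((min_le_right _ _).trans (min_le_right _ _))⟩)
      ((min_le_right _ _).trans (min_le_right _ _)))
    rw [Sl.dl_add, ← e3, e2]
    ring
  · -- non zero
    intro r hr
    obtain ⟨δ₁, hδ₁, h1⟩ := R.ψ_mod r hr
    obtain ⟨δ₂, hδ₂, h2⟩ := R.φψ ε₀ hε₀
    refine ⟨r, hr, fun x xs hx c g hg => ?_⟩
    by_contra hc
    have hxA : x ∈ A := hx.1 x (by simp)
    obtain ⟨g', -, hg'⟩ := ctg_chain (f := v0) (n := q) h0 (h2 x hxA)
    refine Hne ⟨fun l => c⁻¹ * g (l.map (ψ' x)) - g' l, fun h => absurd h hq, min δ₁ δ₂,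
      lt_min hδ₁ hδ₂, fun l hl hs => ?_⟩
    have hD : Dom π A X' r (x :: xs) (l.map (ψ' x)) := by
      refine ⟨hx, SmL.map' (hs.mono subset_rfl (min_le_left _ _)) fun v hv =>
        ⟨(R.ψ_mem x hxA v hv).1, fun v' hv' hd => h1 x hxA v hv v' hv' hd⟩,
        fun y hy w hw => ?_⟩
      obtain ⟨v, hv, rfl⟩ := List.mem_map.1 hw
      rw [(R.ψ_mem x hxA v (hs.1 v hv)).2]
      exact hx.2 y hy x (by simp)
    have e1 := hg _ (by rw [List.length_map]; exact hl) hD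
    have e2 := hg' l hl (hs.mono subset_rfl (min_le_right _ _))
    rw [List.map_id] at e2
    have e3 : ((l.map (ψ' x)).map (φ x)) = l.map (fun v => φ x (ψ' x v)) := by
      rw [List.map_map]; rfl
    rw [e3] at e1
    rw [dl_sub, dl_mul_left, dl_map, ← e1, ← e2]
    field_simp
    ring

end FibN

/-- **Naturality of the transported families.**  `θ : X2' → X1'` over `A`, `θ' : O2 → O1`,
`φ' x ∘ θ ~ θ' ∘ φ x`, `v0 ∘ θ' ~ a v0'`: then `v x ∘ θ ~ a v' x`. -/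
theorem op {X2' : Set E} {O2 : Set E'} {φ φ' : M → E → E'} {θ : E → E} {θ' : E' → E'} {a : k}
    {v0 v0' : List E' → k} (hv : CocL O1 q v0)
    (hφ : ∀ r > 0, ∃ δ > 0, ∀ x ∈ A, ∀ w ∈ nbh π X2' x δ, φ x w ∈ O2 ∧
      ∀ w' ∈ nbh π X2' x δ, dist w w' < δ → dist (φ x w) (φ x w') < r)
    (hc : ∀ r > 0, ∃ δ > 0, ∀ x ∈ A, CtgC O1 (nbh π X2' x δ) δ r (fun w => φ' x (θ w))
      fun w => θ' (φ x w))
    (h0 : ExL O2 q fun l => v0 (l.map θ') - a * v0' l) :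
    ∃ h : M → List E → k, ∃ r > 0, ∀ x ws, ws.length = q + 1 → Dom π A X2' r [x] ws →
      (fun x l => v0 (l.map (φ' x))) x (ws.map θ) - a * (fun x l => v0' (l.map (φ x))) x ws =
        dl (h x) ws := by
  obtain ⟨ε₀, hε₀, hv⟩ := hv
  obtain ⟨g, -, ε, hε, hg⟩ := h0
  obtain ⟨δ₁, hδ₁, h1⟩ := hφ ε hε
  obtain ⟨δ₂, hδ₂, h2⟩ := hc ε₀ hε₀
  have key : ∀ x : M, ∃ h : List E → k, ∀ ws, ws.length = q + 1 →
      Dom π A X2' (min δ₁ δ₂) [x] ws →
      v0 ((ws.map θ).map (φ' x)) - a * v0' (ws.map (φ x)) = dl h ws := by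
    intro x
    by_cases hx : x ∈ A
    · obtain ⟨g', -, hg'⟩ := ctg_chain (f := v0) (n := q) hv (h2 x hx)
      refine ⟨fun l => g (l.map (φ x)) - g' l, fun ws hw hD => ?_⟩
      have e0 := Dom.nbh hD
      have e1 := hg' ws hw (e0.mono (fun w hw => ⟨hw.1, hw.2.trans_le (min_le_right _ _)⟩)
        (min_le_right _ _))
      have e2 : v0 ((ws.map (φ x)).map θ') - a * v0' (ws.map (φ x)) = dl g (ws.map (φ x)) :=
        hg (ws.map (φ x)) (by rw [List.length_map]; exact hw)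
        (SmL.map' (SmL.mono e0 (nbh_mono (min_le_left _ _))
          (min_le_left _ _)) fun w hw => h1 x hx w hw)
      rw [List.map_map] at e2
      rw [dl_sub, dl_map, ← e1, ← e2, List.map_map]
      show v0 (ws.map fun w => φ' x (θ w)) - a * v0' (ws.map (φ x)) =
        v0 (ws.map fun w => θ' (φ x w)) - a * v0' (ws.map (φ x)) -
          (v0 (ws.map fun w => θ' (φ x w)) - v0 (ws.map fun w => φ' x (θ w)))
      ring
    · exact ⟨fun _ => 0, fun ws hw hD => absurd (hD.1.1 x (by simp)) hx⟩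
  choose h hh using key
  exact ⟨h, min δ₁ δ₂, lt_min hδ₁ hδ₂, hh⟩

end Vale.Agent.P216.H892
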