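import Vale.Agent.P216.H892.Fib
import Vale.Agent.P216.H923E.UH

/-!
# The fibre step for filtered families

`FibU π X O c r0 φ ψ`: the geometry, for filtered families `X t`, `O t` (uniform homotopies, a
shift `c`).  From this: `FibN`, `FibR`, `FibC` on all levels, hence `NullB`, `LocB`, `LineB` and the
naturality of the transported families.
-/

set_option linter.all false

open Set

namespace Vale.Agent.P216.H892

open Sl PS E2L D907 H923E

variable {M E E' : Type} [PseudoMetricSpace M] [PseudoMetricSpace E] [PseudoMetricSpace E']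

theorem UH.ctgC {I : Type} {Z : I → Set E} {Y : I → Set E'} {f g : I → E → E'}
    (H : UH Z Y f g) : ∀ r > 0, ∃ δ > 0, ∀ i, CtgC (Y i) (Z i) δ r (f i) (g i) := by
  obtain ⟨D, h1, h2, h3, h4, h5⟩ := H
  intro r hr
  obtain ⟨δ, hδ, h4⟩ := h4 (r / 2) (half_pos hr)
  refine ⟨δ, hδ, fun i => ?_⟩
  obtain ⟨η, hη, h5⟩ := h5 i (r / 2) (half_pos hr)
  obtain ⟨N, hN⟩ := exists_nat_gt (1 / η)
  have hN0 : (0:ℝ) < N := (by positivity : 0 < 1 / η).trans hN
  have hN1 : 1 / (N:ℝ) < η := by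
    rw [div_lt_iff₀ hN0]
    rw [div_lt_iff₀ hη] at hN
    linarith
  have hmem : ∀ i : ℕ, i ≤ N → (i:ℝ) / N ∈ Icc (0:ℝ) 1 := fun i hi =>
    ⟨by positivity, (div_le_one hN0).2 (by exact_mod_cast hi)⟩
  -- a step which does not move
  have triv : ∀ (F G : E → E') (s : ℝ), s ∈ Icc (0:ℝ) 1 → EqOn F (D i s) (Z i) →
      EqOn G (D i s) (Z i) → Ctg (Y i) (Z i) δ r F G := by
    intro F G s hs hF hG w hw
    refine ⟨by rw [hF hw]; exact h1 i s hs hw, by rw [hG hw]; exact h1 i s hs hw,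
      fun w' hw' hd => ?_⟩
    rw [hF hw, hG hw, hF hw', hG hw']
    have := (h4 i s hs w hw w' hw' hd).trans (half_lt_self hr)
    exact ⟨this, this, this⟩
  have key : ∀ j : ℕ, j ≤ N → CtgC (Y i) (Z i) δ r (f i) (D i ((j:ℝ) / N)) := by
    intro j
    induction j with
    | zero =>
      intro hj
      refine Relation.ReflTransGen.single (triv _ _ 0 zero_mem_I (fun w hw => (h2 i hw).symm)
        fun w hw => ?_)
      rw [Nat.cast_zero, zero_div]
    | succ j ih =>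
      intro hj
      refine (ih (by omega)).tail fun w hw => ⟨h1 i _ (hmem j (by omega)) hw,
        h1 i _ (hmem (j + 1) hj) hw, fun w' hw' hd => ?_⟩
      have e0 := h4 i _ (hmem j (by omega)) w hw w' hw' hd
      have e2 := h4 i _ (hmem (j + 1) hj) w hw w' hw' hd
      have e1 := h5 _ (hmem j (by omega)) _ (hmem (j + 1) hj) (by
          rw [show (j:ℝ) / N - ((j + 1 : ℕ):ℝ) / N = -(1 / N) by push_cast; ring, abs_neg,
            abs_of_pos (by positivity)]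
          exact hN1) w hw
      refine ⟨by linarith, by linarith, ?_⟩
      linarith [dist_triangle (D i ((j:ℝ) / N) w) (D i (((j + 1 : ℕ):ℝ) / N) w)
          (D i (((j + 1 : ℕ):ℝ) / N) w')]
  refine (key N le_rfl).tail (triv _ _ 1 one_mem_I (fun w hw => ?_) fun w hw => (h3 i hw).symm)
  rw [div_self hN0.ne']

/-- The closed version of `nbh`. -/
def nbc (π : E → M) (X : Set E) (x : M) (r : ℝ) : Set E := {w | w ∈ X ∧ dist x (π w) ≤ r}

/-- The fibre. -/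
def fbr (π : E → M) (X : Set E) (x : M) : Set E := {w | w ∈ X ∧ π w = x}

/-- The geometry of the fibre step. -/
structure FibU (π : E → M) (X : ℝ → Set E) (O : ℝ → Set E') (c r0 : ℝ) (φ : M → ℝ → E → E')
    (ψ : M → ℝ → E' → E) : Prop where
  hc : 0 ≤ c
  hr : 0 < r0
  monoX : Monotone X
  monoO : Monotone O
  um : ∀ t > 0, UM (fun x : M => nbc π (X t) x r0) (fun _ => O (t + c)) fun x => φ x t
  um' : ∀ t > 0, UM (fun _ : M => O t) (fun x => fbr π (X (t + c)) x) fun x => ψ x t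
  h1 : ∀ t > 0, UH (fun _ : M => O t) (fun _ => O (t + 2 * c)) (fun _ => id)
    fun x v => φ x (t + c) (ψ x t v)
  h2 : ∀ t > 0, UH (fun i : M × {r : ℝ // r ≤ r0} => nbc π (X t) i.1 i.2)
    (fun i => nbc π (X (t + 2 * c)) i.1 i.2) (fun _ => id) fun i w => ψ i.1 (t + c) (φ i.1 t w)
  h3 : ∀ t > 0, UH (fun i : M × M => nbc π (X t) i.1 r0 ∩ nbc π (X t) i.2 r0)
    (fun _ => O (t + c)) (fun i => φ i.1 t) fun i => φ i.2 t
  h4 : ∀ s > 0, ∀ t ≥ s, UH (fun x : M => nbc π (X s) x r0) (fun _ => O (t + c))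
    (fun x => φ x s) fun x => φ x t
  h4' : ∀ s > 0, ∀ t ≥ s, UH (fun _ : M => O s) (fun x => fbr π (X (t + c)) x)
    (fun x => ψ x s) fun x => ψ x t

variable {π : E → M} {A : Set M} {X : ℝ → Set E} {O : ℝ → Set E'} {c r0 s t T : ℝ}
  {φ : M → ℝ → E → E'} {ψ : M → ℝ → E' → E}

theorem nbh_nbc {X₀ : Set E} {x : M} {δ r : ℝ} (h : δ ≤ r) : nbh π X₀ x δ ⊆ nbc π X₀ x r :=
  fun _ hw => ⟨hw.1, hw.2.le.trans h⟩

theorem nbc_nbh {X₀ X₁ : Set E} {x : M} {δ r : ℝ} (hX : X₀ ⊆ X₁) (h : δ < r) :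
    nbc π X₀ x δ ⊆ nbh π X₁ x r := fun _ hw => ⟨hX hw.1, hw.2.trans_lt h⟩

theorem CtgC.right {Y : Set E'} {Zs : Set E} {δ r : ℝ} {f f' : E → E'}
    (h : CtgC Y Zs δ r f f') {E₀ : Type} [PseudoMetricSpace E₀] {Z₀ : Set E₀} {δ₀ : ℝ}
    {j : E₀ → E} (hj : ∀ w ∈ Z₀, j w ∈ Zs ∧ ∀ w' ∈ Z₀, dist w w' < δ₀ → dist (j w) (j w') < δ) :
    CtgC Y Z₀ δ₀ r (fun w => f (j w)) fun w => f' (j w) := by
  induction h with
  | refl => exact Relation.ReflTransGen.refl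
  | tail _ h ih =>
    refine ih.tail fun w hw => ?_
    have := h (j w) (hj w hw).1
    exact ⟨this.1, this.2.1, fun w' hw' hd => this.2.2 (j w') (hj w' hw').1 ((hj w hw).2 w' hw' hd)⟩

namespace FibU

theorem φ_mod (U : FibU π X O c r0 φ ψ) (A : Set M) (ht : 0 < t) : ∀ r > 0, ∃ δ > 0,
    ∀ x ∈ A, ∀ w ∈ nbh π (X t) x δ, φ x t w ∈ O (t + c) ∧
      ∀ w' ∈ nbh π (X t) x δ, dist w w' < δ → dist (φ x t w) (φ x t w') < r := by
  intro r hr
  obtain ⟨δ, hδ, h⟩ := (U.um t ht).2 r hr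
  refine ⟨min δ r0, lt_min hδ U.hr, fun x _ w hw => ?_⟩
  have hw' := nbh_nbc (min_le_right δ r0) hw
  exact ⟨(U.um t ht).1 x hw', fun w₁ hw₁ hd => h x w hw' w₁ (nbh_nbc (min_le_right _ _) hw₁)
    (hd.trans_le (min_le_left _ _))⟩

theorem ψ_mod (U : FibU π X O c r0 φ ψ) (A : Set M) (ht : 0 < t) : ∀ r > 0, ∃ δ > 0,
    ∀ x ∈ A, ∀ v ∈ O t, ∀ v' ∈ O t, dist v v' < δ → dist (ψ x t v) (ψ x t v') < r := by
  intro r hr
  obtain ⟨δ, hδ, h⟩ := (U.um' t ht).2 r hr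
  exact ⟨δ, hδ, fun x _ => h x⟩

/-- `FibN` on the levels `X (T + c)`, `X t`, `O T`, `O (t + c)`, `t + c ≤ T`. -/
theorem fibN (U : FibU π X O c r0 φ ψ) (A : Set M) (ht : 0 < t) (hT : t + c ≤ T) :
    FibN π A (X (T + c)) (X t) (O T) (O (t + c)) (fun x => φ x t) fun x => ψ x T := by
  have hc := U.hc
  have hT0 : 0 < T := by linarith
  refine ⟨U.monoO hT, fun x _ v hv => (U.um' T hT0).1 x hv, U.ψ_mod A hT0, U.φ_mod A ht,
    fun r hr => ?_⟩
  have hρ : 0 < min (r / 2) r0 := lt_min (half_pos hr) U.hr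
  have hρr : min (r / 2) r0 < r := (min_le_left _ _).trans_lt (half_lt_self hr)
  obtain ⟨δ₁, hδ₁, h1⟩ := UH.ctgC (U.h2 t ht) r hr
  obtain ⟨δ₂, hδ₂, h2⟩ := UH.ctgC (U.h4' (t + c) (by linarith) T hT) r hr
  obtain ⟨δ₃, hδ₃, h3⟩ := U.φ_mod A ht δ₂ hδ₂
  refine ⟨min (min (r / 2) r0) (min δ₁ δ₃), lt_min hρ (lt_min hδ₁ hδ₃), fun x hx => ?_⟩
  refine Relation.ReflTransGen.trans (CtgC.mono (h1 (x, ⟨min (r / 2) r0, min_le_right _ _⟩))
    (nbc_nbh (U.monoX (by linarith)) hρr) (nbh_nbc (min_le_left _ _))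
    ((min_le_right _ _).trans (min_le_left _ _)) le_rfl) ?_
  have e := CtgC.right (h2 x) (j := φ x t) (Z₀ := nbh π (X t) x δ₃) (δ₀ := δ₃)
    fun w hw => h3 x hx w hw
  refine CtgC.mono e (fun w hw => ⟨hw.1, ?_⟩)
    (nbh_mono ((min_le_right _ _).trans (min_le_right _ _)))
    ((min_le_right _ _).trans (min_le_right _ _)) le_rfl
  rw [hw.2, dist_self]
  exact hr

/-- `FibR` on the levels `X t`, `O (t + c)`, `O (t - c)`. -/
theorem fibR (U : FibU π X O c r0 φ ψ) (A : Set M) (ht : c < t) :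
    FibR π A (X t) (O (t + c)) (O (t - c)) (fun x => φ x t) fun x => ψ x (t - c) := by
  have h0 : 0 < t - c := by linarith
  refine ⟨fun x _ v hv => ?_, U.ψ_mod A h0, fun r hr => ?_⟩
  · have := (U.um' (t - c) h0).1 x hv
    rwa [sub_add_cancel] at this
  · obtain ⟨δ, hδ, h⟩ := UH.ctgC (U.h1 (t - c) h0) r hr
    refine ⟨δ, hδ, fun x _ => ?_⟩
    have e := h x
    rw [show t - c + 2 * c = t + c by ring, sub_add_cancel] at e
    exact e

/-- `FibC` on the level `X t`. -/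
theorem fibC (U : FibU π X O c r0 φ ψ) (A : Set M) (ht : 0 < t) :
    FibC π A (X t) (O (t + c)) fun x => φ x t := by
  intro r hr
  obtain ⟨δ, hδ, h⟩ := UH.ctgC (U.h3 t ht) r hr
  exact ⟨min δ r0, lt_min hδ U.hr, fun x _ y _ _ => CtgC.mono (h (x, y)) subset_rfl
    (inter_subset_inter (nbh_nbc (min_le_right _ _)) (nbh_nbc (min_le_right _ _)))
    (min_le_left _ _) le_rfl⟩

/-- The maps `φ x s` and `φ x t`. -/
theorem fibL (U : FibU π X O c r0 φ ψ) (A : Set M) (hs : 0 < s) (hst : s ≤ t) :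
    ∀ r > 0, ∃ δ > 0, ∀ x ∈ A, CtgC (O (t + c)) (nbh π (X s) x δ) δ r (φ x t) (φ x s) := by
  intro r hr
  obtain ⟨δ, hδ, h⟩ := UH.ctgC (U.h4 s hs t hst).symm r hr
  exact ⟨min δ r0, lt_min hδ U.hr, fun x _ => CtgC.mono (h x) subset_rfl
    (nbh_nbc (min_le_right _ _)) (min_le_left _ _) le_rfl⟩

variable {k : Type} [Field k] {q : ℕ}

/-- **(NullB)** on the levels. -/
theorem nullB (U : FibU π X O c r0 φ ψ) (A : Set M) (hO : ∀ t, IsCompact (O t)) (ht : 0 < t)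
    (hT : t + c ≤ T) (HN : ∀ F : List E' → k, CocL (O T) q F → ExL (O (t + c)) q F) :
    NullB π A (X (T + c)) (X t) k q :=
  (U.fibN A ht hT).nullB (hO _) HN

/-- **(NullB)** in degree `0`. -/
theorem nullB_zero (U : FibU π X O c r0 φ ψ) (A : Set M) (ht : 0 < t) (hT : t + c ≤ T)
    (H0 : ∀ F : List E' → k, CocL (O T) 0 F → ∃ a : k, ∀ v ∈ O (t + c), F [v] = a) :
    NullB π A (X (T + c)) (X t) k 0 :=
  (U.fibN A ht hT).nullB_zero H0

/-- **(LocB)** on the levels. -/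
theorem locB (U : FibU π X O c r0 φ ψ) (A : Set M) (hO : ∀ t, IsCompact (O t)) (ht : 0 < t)
    (hT : t + c ≤ T) (q : ℕ) : ∀ r > 0, ∃ r' > 0, ∀ (x : M) (xs : List M), SmL A r' (x :: xs) →
      ∀ f : List E → k, (∀ ws, ws.length = q + 2 → Dom π A (X (T + c)) r (x :: xs) ws →
        dl f ws = 0) → ExL (fbr π (X (T + c)) x) q f → ∃ g : List E → k,
          (q = 0 → ∀ l, g l = 0) ∧ ∀ ws, ws.length = q + 1 →
            Dom π A (X t) r' (x :: xs) ws → f ws = dl g ws :=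
  (U.fibN A ht hT).locB (hO _) q

/-- **(LineB)** on the levels; the family is `v x := v0 ∘ φ x t`. -/
theorem lineB (U : FibU π X O c r0 φ ψ) (A : Set M) (hO : ∀ t, IsCompact (O t)) (ht : c < t)
    (hT : t + c ≤ T) (hq : q ≠ 0) {v0 : List E' → k} (hv : CocL (O T) q v0)
    (HL : ∀ F : List E' → k, CocL (O T) q F → ∃ a : k, ExL (O (t + c)) q fun l => F l - a * v0 l)
    (Hne : ¬ ExL (O (t - c)) q v0) :
    LineB π A (X (T + c)) (X t) q fun x l => v0 (l.map (φ x t)) := by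
  have h0 : 0 < t := U.hc.trans_lt ht
  obtain ⟨R1, R2, R3⟩ := U.fibR A ht
  refine (U.fibN A h0 hT).lineB (O3 := O (t - c)) (ψ' := fun x => ψ x (t - c))
    ⟨R1, R2, fun r hr => ?_⟩ (fun r hr => ?_) (hO _) hq hv HL Hne
  · obtain ⟨δ, hδ, h⟩ := R3 r hr
    exact ⟨δ, hδ, fun x hx => CtgC.mono (h x hx) (U.monoO hT) subset_rfl le_rfl le_rfl⟩
  · obtain ⟨δ, hδ, h⟩ := U.fibC A h0 r hr
    exact ⟨δ, hδ, fun x hx y hy hd =>
      CtgC.mono (h x hx y hy hd) (U.monoO hT) subset_rfl le_rfl le_rfl⟩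

/-- The families on two levels `s ≤ t`, `v0 ~ a v0'` on `O (s + c)`. -/
theorem opL (U : FibU π X O c r0 φ ψ) (A : Set M) (hs : 0 < s) (hst : s ≤ t) (hT : t + c ≤ T)
    {v0 v0' : List E' → k} (hv : CocL (O T) q v0) {a : k}
    (h0 : ExL (O (s + c)) q fun l => v0 l - a * v0' l) :
    ∃ h : M → List E → k, ∃ r > 0, ∀ x ws, ws.length = q + 1 → Dom π A (X s) r [x] ws →
      v0 (ws.map (φ x t)) - a * v0' (ws.map (φ x s)) = dl (h x) ws := by
  have e : ExL (O (s + c)) q fun l => v0 (l.map id) - a * v0' l := by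
    simpa only [List.map_id] using h0
  have e1 := op (A := A) (π := π) (θ := id) (θ' := id) (φ := fun x => φ x s)
    (φ' := fun x => φ x t) hv (U.φ_mod A hs) (fun r hr => by
      obtain ⟨δ, hδ, h⟩ := U.fibL A hs hst r hr
      exact ⟨δ, hδ, fun x hx => CtgC.mono (h x hx) (U.monoO hT) subset_rfl le_rfl le_rfl⟩) e
  obtain ⟨h, r, hr, h2⟩ := e1
  refine ⟨h, r, hr, fun x ws h3 h4 => ?_⟩
  have := h2 x ws h3 h4
  rwa [List.map_id] at this

/-- The families and a map `θ : X s → X t'` over `A`, covered by `θ' : O (s + c) → O (t' + c)`: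
`φ x t' ∘ θ ~ θ' ∘ φ x s`, `v0 ∘ θ' ~ a v0'` on `O (s + c)`. -/
theorem opθ (U : FibU π X O c r0 φ ψ) (A : Set M) (hs : 0 < s) {t' : ℝ} (hT : t' + c ≤ T)
    {θ : E → E} {θ' : E' → E'} (hH : UH (fun x : M => nbc π (X s) x r0) (fun _ => O (t' + c))
      (fun x w => φ x t' (θ w)) fun x w => θ' (φ x s w))
    {v0 v0' : List E' → k} (hv : CocL (O T) q v0) {a : k}
    (h0 : ExL (O (s + c)) q fun l => v0 (l.map θ') - a * v0' l) :
    ∃ h : M → List E → k, ∃ r > 0, ∀ x ws, ws.length = q + 1 → Dom π A (X s) r [x] ws →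
      v0 ((ws.map θ).map (φ x t')) - a * v0' (ws.map (φ x s)) = dl (h x) ws :=
  op (A := A) (π := π) (θ := θ) (θ' := θ') (φ := fun x => φ x s)
    (φ' := fun x => φ x t') hv (U.φ_mod A hs) (fun r hr => by
      obtain ⟨δ, hδ, h⟩ := UH.ctgC hH r hr
      exact ⟨min δ r0, lt_min hδ U.hr, fun x _ => CtgC.mono (h x) (U.monoO hT)
        (nbh_nbc (min_le_right _ _)) (min_le_left _ _) le_rfl⟩) h0

end FibU

end Vale.Agent.P216.H892
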