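import Vale.Agent.P216.H892.FibU
import Vale.Agent.P216.E2L.Fib

/-!
# The interface `E2L.Fib` from the fibre step and the based loops

`OmL k O θ m Fs w`: the cohomology of the based loops `O t` on the level of list cochains (losses
arbitrary), with the operator `θ`.
`fib_of`: `FibU`, `OmL` and the compatibility of `φ` with `θ` give `E2L.Fib`.
-/

set_option linter.all false

open Set

namespace Vale.Agent.P216.H892

open Sl PS E2L D907 H923E

/-- The based loops: the cohomology of degree `q` is a line for `Fs q`, of weight `w q`; it dies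
otherwise. -/
structure OmL (k : Type) [Field k] {E : Type} [PseudoMetricSpace E] (O : ℝ → Set E)
    (θ : ℝ → E → E) (m : ℝ) (Fs : ℕ → Prop) (w : ℕ → k) : Prop where
  zero : ∀ t > 0, ∃ T ≥ t, ∀ F : List E → k, CocL (O T) 0 F → ∃ a : k, ∀ v ∈ O t, F [v] = a
  null : ∀ q, ¬ Fs q → ∀ t > 0, ∃ T ≥ t, ∀ F : List E → k, CocL (O T) q F → ExL (O t) q F
  line : ∀ q, Fs q → q ≠ 0 → ∃ t₀ > 0, ∀ t ≥ t₀, ∃ T ≥ t, ∃ v : List E → k, CocL (O T) q v ∧
    (∀ F : List E → k, CocL (O T) q F → ∃ a : k, ExL (O t) q fun l => F l - a * v l) ∧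
    ¬ ExL (O t₀) q v ∧
    ∀ s > 0, m * s ≤ t → ExL (O s) q fun l => v (l.map (θ s)) - w q * v l

variable {M E : Type} [PseudoMetricSpace M] [PseudoMetricSpace E]
  {π : E → M} {A : Set M} {X O : ℝ → Set E} {c r0 m : ℝ}
  {φ ψ : M → ℝ → E → E} {θ : ℝ → E → E} {k : Type} [Field k] {q : ℕ} {Fs : ℕ → Prop} {w : ℕ → k}
  {x₀ : M}

theorem UH.list_one {Z Y : Set E} {f g : E → E}
    (H : UH (fun _ : Unit => Z) (fun _ => Y) (fun _ => f) fun _ => g) {F : List E → k}
    (hF : CocL Y q F) (hq : q ≠ 0) : ExL Z q fun l => F (l.map g) - F (l.map f) := by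
  obtain ⟨r, hr, h⟩ := hF
  obtain ⟨δ, hδ, h1⟩ := H.list (k := k) q r hr
  obtain ⟨G, -, hG⟩ := h1 () F h
  exact ⟨G, fun h => absurd h hq, δ, hδ, hG⟩

namespace FibU

/-- The transported family of a cocycle is a family of fibre cocycles. -/
theorem famV (U : FibU π X O c r0 φ ψ) (A : Set M) {t T : ℝ} (ht : 0 < t) (hT : t + c ≤ T)
    {y : List E → k} (hy : CocL (O T) q y) :
    FamV π A (X t) q fun x l => y (l.map (φ x t)) := by
  obtain ⟨ε, hε, h0⟩ := hy
  refine ⟨?_, ?_⟩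
  · obtain ⟨δ, hδ, h⟩ := U.φ_mod A ht ε hε
    refine ⟨δ, hδ, fun x ws hw hD => ?_⟩
    have hxA : x ∈ A := hD.1.1 x (by simp)
    rw [dl_map]
    exact h0 _ (by rw [List.length_map]; exact hw)
      ((SmL.map' (Dom.nbh hD) fun w hw => h x hxA w hw).mono (U.monoO hT) le_rfl)
  · obtain ⟨δ, hδ, h⟩ := U.fibC A ht ε hε
    have key : ∀ x y' : M, ∃ g : List E → k, ∀ ws, ws.length = q + 1 →
        Dom π A (X t) δ [x, y'] ws → y (ws.map (φ y' t)) - y (ws.map (φ x t)) = dl g ws := by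
      intro x y'
      by_cases hc : x ∈ A ∧ y' ∈ A ∧ dist x y' < δ
      · obtain ⟨g, -, hg⟩ := ctg_chain (f := y) (n := q) h0
          (CtgC.mono (h x hc.1 y' hc.2.1 hc.2.2) (U.monoO hT) subset_rfl le_rfl le_rfl)
        refine ⟨g, fun ws hw hD => hg ws hw ⟨fun w hw => ⟨⟨hD.2.1.1 w hw, ?_⟩,
          ⟨hD.2.1.1 w hw, ?_⟩⟩, hD.2.1.2⟩⟩
        · exact hD.2.2 x (by simp) w hw
        · exact hD.2.2 y' (by simp) w hw
      · exact ⟨fun _ => 0, fun ws hw hD => absurd ⟨hD.1.1 x (by simp), hD.1.1 y' (by simp),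
          hD.1.2 x (by simp) y' (by simp)⟩ hc⟩
    choose g hg using key
    exact ⟨g, δ, hδ, hg⟩

/-- The operator on the transported family, levels `s`, `m s ≤ t`. -/
theorem opV (U : FibU π X O c r0 φ ψ) (A : Set M) (hm : 1 ≤ m) {s t T : ℝ} (hs : 0 < s)
    (hst : m * s ≤ t) (hT : t + m * c ≤ T) (hop : OpE π (X s) (X (m * s)) (θ s))
    (hθ : UH (fun x : M => nbc π (X s) x r0) (fun _ => O (m * (s + c)))
      (fun x w => φ x (m * s) (θ s w)) fun x w => θ (s + c) (φ x s w))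
    {v : List E → k} (hv : CocL (O T) q v) {a : k}
    (h0 : ExL (O (s + c)) q fun l => v (l.map (θ (s + c))) - a * v l) :
    OpV π A (X s) q (fun x l => v (l.map (φ x t))) (θ s) a := by
  have hc := U.hc
  have hms : 0 < m * s := mul_pos (by linarith) hs
  have hsm : s ≤ m * s := le_mul_of_one_le_left hs.le hm
  have hcm : c ≤ m * c := le_mul_of_one_le_left hc hm
  -- the homotopy on the upper level
  have hum : UM (fun x : M => nbc π (X s) x r0) (fun x => nbc π (X (m * s)) x r0)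
      fun _ => θ s := by
    refine ⟨fun x w hw => ⟨hop.maps hw.1, ?_⟩, fun ε hε => ?_⟩
    · show dist x (π (θ s w)) ≤ r0
      rw [hop.pi w hw.1]
      exact hw.2
    · obtain ⟨δ, hδ, h⟩ := hop.uc ε hε
      exact ⟨δ, hδ, fun x w hw w' hw' => h w hw.1 w' hw'.1⟩
  have h1 : UH (fun x : M => nbc π (X s) x r0) (fun _ => O T)
      (fun x w => φ x t (θ s w)) fun x w => θ (s + c) (φ x s w) := by
    have e1 := ((U.h4 (m * s) hms t hst).symm.comp_right hum).mono (Y' := fun _ => O T)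
      (fun _ => subset_rfl) fun _ => U.monoO (by linarith)
    have e2 := hθ.mono (Y' := fun _ => O T) (fun _ => subset_rfl)
      fun _ => U.monoO (by nlinarith)
    exact e1.trans e2
  obtain ⟨g1, r1, hr1, h1⟩ := op (A := A) (π := π) (θ := θ s) (θ' := θ (s + c))
    (φ := fun x => φ x s) (φ' := fun x => φ x t) hv (U.φ_mod A hs) (fun r hr => by
      obtain ⟨δ, hδ, h⟩ := UH.ctgC h1 r hr
      exact ⟨min δ r0, lt_min hδ U.hr, fun x _ => CtgC.mono (h x) subset_rfl
        (nbh_nbc (min_le_right _ _)) (min_le_left _ _) le_rfl⟩) h0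
  obtain ⟨g2, r2, hr2, h2⟩ := U.opL A hs (hsm.trans hst) (T := T) (by linarith) hv
    (v0' := v) (a := 1) ⟨fun _ => 0, fun _ _ => rfl, 1, one_pos, fun l _ _ => by
      rw [dl_zero_fun]
      show v l - 1 * v l = 0
      ring⟩
  refine ⟨fun x l => g1 x l - a * g2 x l, min r1 r2, lt_min hr1 hr2, fun x ws h3 h4 => ?_⟩
  have e1 : v ((ws.map (θ s)).map (φ x t)) - a * v (ws.map (φ x s)) = dl (g1 x) ws :=
    h1 x ws h3 (h4.mono subset_rfl (min_le_left _ _))
  have e2 := h2 x ws h3 (h4.mono subset_rfl (min_le_right _ _))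
  rw [dl_sub, dl_mul_left, ← e1, ← e2]
  ring

end FibU

/-- **The interface of the Leray zigzag.** -/
theorem fib_of (U : FibU π X O c r0 φ ψ) (hO : ∀ t, IsCompact (O t))
    (lip : ∀ w w', dist (π w) (π w') ≤ dist w w') (mem : x₀ ∈ A)
    (ob : ∀ t w, w ∈ O t ↔ w ∈ X t ∧ π w = x₀) (ne : ∀ t > 0, ∀ x ∈ A, ∃ w ∈ X t, π w = x)
    (hm : 1 ≤ m) (op : ∀ s > 0, OpE π (X s) (X (m * s)) (θ s)) (f0 : Fs 0) (w0 : w 0 = 1)
    (hx : ∀ t > 0, UH (fun _ : Unit => O t) (fun _ => O (t + c)) (fun _ => id)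
      fun _ => φ x₀ t)
    (hθ : ∀ s > 0, UH (fun x : M => nbc π (X s) x r0) (fun _ => O (m * (s + c)))
      (fun x w => φ x (m * s) (θ s w)) fun x w => θ (s + c) (φ x s w))
    (L : OmL k O θ m Fs w) : Fib π A X O x₀ θ m k Fs w := by
  have hc := U.hc
  have hcm : c ≤ m * c := le_mul_of_one_le_left hc hm
  refine ⟨U.monoX, lip, mem, ob, ne, hm, op, f0, w0, fun t ht => ?_, fun q hq t ht => ?_,
    fun q hq hq0 => ?_, fun q hq t ht => ?_⟩
  · obtain ⟨T, hT, h⟩ := L.zero (t + c) (by linarith)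
    exact ⟨T + c, by linarith, U.nullB_zero A ht hT h⟩
  · obtain ⟨T, hT, h⟩ := L.null q hq (t + c) (by linarith)
    exact ⟨T + c, by linarith, U.nullB A hO ht hT h⟩
  · obtain ⟨t₀, ht₀, h⟩ := L.line q hq hq0
    refine ⟨t₀ + c, by linarith, fun t ht => ?_⟩
    obtain ⟨T, hT, v, hv, hL, hne, hw⟩ := h (t + m * c) (by linarith)
    refine ⟨T + c, by linarith, fun x l => v (l.map (φ x t)),
      U.lineB A hO (by linarith) (by linarith) hq0 hv (fun F hF => ?_) (fun he => hne ?_),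
      fun s hs hst => U.opV A hm hs hst hT (op s hs) (hθ s hs) hv (hw (s + c) (by linarith)
        (by nlinarith))⟩
    · obtain ⟨a, ha⟩ := hL F hF
      exact ⟨a, ha.mono (U.monoO (by linarith))⟩
    · exact he.mono (U.monoO (by linarith))
  · refine ⟨t + c, by linarith, fun y hy => ⟨fun x l => y (l.map (φ x t)),
      U.famV A ht le_rfl hy, ?_⟩⟩
    have e := UH.list_one (hx t ht) hy hq
    simpa only [List.map_id] using e

end Vale.Agent.P216.H892
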