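import Vale.Agent.P216.H892.FinM

/-!
# P216-C: the cohomology of a space with a handle decomposition, on plain sets

`relVan`, `LVan`, `c1`: vanishing; `finrank_rel`, `finrank_L`, `finrank_M`: the dimensions;
`c2`: the top class; `resL2`: a class of degree `d` not zero on `L 2`.
-/

set_option linter.all false

open Set

namespace Vale.Agent.P216.H892

open Vale.Agent.P216.AS Vale.Agent.P216.H901 Vale.Agent.P216.H133C Vale.Agent.P216.H83
  Vale.Agent.P216.H550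

variable {k : Type} [Field k]

/-- The cohomology of a point in degree `0`. -/
theorem finrank_pt : Module.finrank k (Hr (tr PUnit) (on k) (univ : Set PUnit) ∅ 0) = 1 := by
  have hf : Module.Finite k (Hr (tr PUnit) (on k) (univ : Set PUnit) ∅ 0) := pt_finite 0
  have h1 : (fun _ => (1 : k) : (Fin (0 + 1) → PUnit) → k) ∈
      Zc (Zr (tr PUnit) (on k) (univ : Set PUnit) ∅) (Zr (tr PUnit) (on k) univ univ) 0 := by
    refine ⟨⟨fun i => i.elim, 1, one_pos, fun y hy => absurd (hy.1 0) (notMem_empty _)⟩,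
      fun i => i.elim, 1, one_pos, fun y _ => ?_⟩
    change P265.AS.d (fun _ : Fin (0 + 1) → PUnit => (1 : k)) y = 0
    rw [P265.AS.d_succ_apply, P265.AS.d_zero_apply, sub_self]
  have h0 : (H.mk _ h1 : Hr (tr PUnit) (on k) (univ : Set PUnit) ∅ 0) ≠ 0 := by
    intro h
    rw [H.mk_eq_zero, mem_Bc_zero] at h
    obtain ⟨-, ε, hε, h⟩ := h
    exact one_ne_zero (h (fun _ => PUnit.unit) ⟨fun _ => trivial, fun _ _ => by simpa using hε⟩)
  refine finrank_eq_one (H.mk _ h1) h0 fun w => ?_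
  obtain ⟨c, hc, rfl⟩ := H.exists_mk w
  refine ⟨c fun _ => PUnit.unit, ?_⟩
  rw [← H.mk_smul, H.mk_eq_mk, mem_Bc_zero]
  refine ⟨fun i => i.elim, 1, one_pos, fun y _ => ?_⟩
  change c (fun _ => PUnit.unit) * 1 - c y = 0
  rw [mul_one, sub_eq_zero]

section Dec

variable {M : Type} [MetricSpace M] [CompactSpace M] {d h : ℕ} (C : CellDec M d h)

theorem L_sub (j : ℕ) : C.L j ⊆ C.L (j + 1) := C.L_mono (Nat.le_succ j)

/-- The relative groups of a handle. -/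
theorem relVan (h2 : (2 : k) ≠ 0) {j : ℕ} (hj : j ≤ h) {q : ℕ} (hq : q ≠ d * j)
    (x : Hr (tr M) (on k) (C.L (j + 1)) (C.L j) q) : x = 0 := by
  have key : ∀ X A : Set M, X = ovr (id : M → M) (UM M) (C.L (j + 1)) 1 →
      A = ovr (id : M → M) (UM M) (C.L j) 1 → ∀ x : Hr (tr M) (on k) X A q, x = 0 := by
    rintro _ _ rfl rfl x
    exact rel_zero C h2 (Nat.lt_succ_of_le hj) hq x
  exact key _ _ (ovr_id _ _).symm (ovr_id _ _).symm x

theorem relE (h2 : (2 : k) ≠ 0) {j : ℕ} (hj : j ≤ h) :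
    Nonempty (Hr (tr M) (on k) (C.L (j + 1)) (C.L j) (d * j) ≃ₗ[k]
      Hr (tr PUnit) (on k) (univ : Set PUnit) ∅ 0) := by
  have key : ∀ (X A : Set M) (q : ℕ), X = ovr (id : M → M) (UM M) (C.L (j + 1)) 1 →
      A = ovr (id : M → M) (UM M) (C.L j) 1 → q = 0 + d * j →
      Nonempty (Hr (tr M) (on k) X A q ≃ₗ[k] Hr (tr PUnit) (on k) (univ : Set PUnit) ∅ 0) := by
    rintro _ _ _ rfl rfl rfl
    exact ⟨intl0E ((sysM C k h2).i j (Nat.lt_succ_of_le hj) 0)⟩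
  exact key _ _ _ (ovr_id _ _).symm (ovr_id _ _).symm (Nat.zero_add _).symm

theorem finrank_rel (h2 : (2 : k) ≠ 0) {j : ℕ} (hj : j ≤ h) :
    Module.finrank k (Hr (tr M) (on k) (C.L (j + 1)) (C.L j) (d * j)) = 1 := by
  obtain ⟨e⟩ := relE C h2 hj
  rw [e.finrank_eq, finrank_pt]

/-- The cohomology of `L j` lives in the degrees `d * i`, `i < j`. -/
theorem LVan' (h2 : (2 : k) ≠ 0) {j : ℕ} (hj : j ≤ h + 1) {q : ℕ} (hq : ∀ i < j, q ≠ d * i)
    (x : Hr (tr M) (on k) (C.L j) ∅ q) : x = 0 := by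
  have key : ∀ X : Set M, X = ovr (id : M → M) (UM M) (C.L j) 1 →
      ∀ x : Hr (tr M) (on k) X ∅ q, x = 0 := by
    rintro _ rfl x
    exact HL_zero C h2 j hj q hq x
  exact key _ (ovr_id _ _).symm x

theorem LVan (h2 : (2 : k) ≠ 0) {j : ℕ} (hj : j ≤ h + 1) {q : ℕ} (hq : ¬ d ∣ q)
    (x : Hr (tr M) (on k) (C.L j) ∅ q) : x = 0 :=
  LVan' C h2 hj (fun i _ e => hq ⟨i, e⟩) x

theorem c1 (h2 : (2 : k) ≠ 0) {j : ℕ} (hj : j ≤ h + 1) (q : ℕ) (hq : d * (j - 1) < q)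
    (x : Hr (tr M) (on k) (C.L j) ∅ q) : x = 0 := by
  refine LVan' C h2 hj (fun i hi e => ?_) x
  have := Nat.mul_le_mul_left d (show i ≤ j - 1 by omega)
  omega

theorem L_finite (h2 : (2 : k) ≠ 0) {j : ℕ} (hj : j ≤ h + 1) (q : ℕ) :
    Module.Finite k (Hr (tr M) (on k) (C.L j) ∅ q) := by
  have key : ∀ X : Set M, X = ovr (id : M → M) (UM M) (C.L j) 1 →
      Module.Finite k (Hr (tr M) (on k) X ∅ q) := by
    rintro _ rfl
    exact HL_finite C h2 j hj q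
  exact key _ (ovr_id _ _).symm

/-- `H^{d j}(L (j + 1), L j) → H^{d j}(L (j + 1))` is injective. -/
theorem lesA_inj (h2 : (2 : k) ≠ 0) (hd : 2 ≤ d) {j : ℕ} (hj : j ≤ h) :
    Function.Injective (lesA k (C.L (j + 1)) (C.L j) (d * j)) := by
  rcases Nat.eq_zero_or_pos j with rfl | hj0
  · have := lesA_zero_injective k (C.L (0 + 1)) (C.L 0)
    rwa [← Nat.mul_zero d] at this
  · obtain ⟨q, hq⟩ : ∃ q, d * j = q + 1 := ⟨d * j - 1, by
      have : 0 < d * j := Nat.mul_pos (by omega) hj0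
      omega⟩
    rw [hq]
    rw [injective_iff_map_eq_zero]
    intro x hx
    obtain ⟨y, rfl⟩ := (les_ex3 k (L_sub C j) q x).1 hx
    rw [LVan C h2 (by omega) (fun hdq => ?_) y, map_zero]
    have h3 : d ∣ q + 1 := ⟨j, hq.symm⟩
    have h4 : d ∣ 1 := (Nat.dvd_add_right hdq).1 h3
    have := Nat.le_of_dvd one_pos h4
    omega

/-- `H^{d j}(L (j + 1), L j) ≅ H^{d j}(L (j + 1))`. -/
theorem lesA_bij (h2 : (2 : k) ≠ 0) (hd : 2 ≤ d) {j : ℕ} (hj : j ≤ h) :
    Function.Bijective (lesA k (C.L (j + 1)) (C.L j) (d * j)) := by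
  refine ⟨lesA_inj C h2 hd hj, fun x => ?_⟩
  refine (les_ex1 k (L_sub C j) (d * j) x).1 (LVan' C h2 (by omega) (fun i hi e => ?_) _)
  exact absurd (Nat.eq_of_mul_eq_mul_left (by omega) e) (by omega)

/-- `H^q(L (j + 1)) ≅ H^q(L j)` for `q ≠ d j, d j - 1`. -/
theorem lesB_bij (h2 : (2 : k) ≠ 0) {j : ℕ} (hj : j ≤ h) {q : ℕ} (hq : q ≠ d * j)
    (hq' : q + 1 ≠ d * j) : Function.Bijective (lesB k (L_sub C j) q) := by
  constructor
  · rw [injective_iff_map_eq_zero]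
    intro x hx
    obtain ⟨y, rfl⟩ := (les_ex1 k (L_sub C j) q x).1 hx
    rw [relVan C h2 hj hq y, map_zero]
  · intro x
    exact (les_ex2 k (L_sub C j) q x).1 (relVan C h2 hj hq' _)

/-- `H^{d i}(L j)` is a line for `i < j`. -/
theorem finrank_L (h2 : (2 : k) ≠ 0) (hd : 2 ≤ d) {i : ℕ} : ∀ {j : ℕ}, j ≤ h + 1 → i < j →
    Module.finrank k (Hr (tr M) (on k) (C.L j) ∅ (d * i)) = 1
  | 0, _, hi => absurd hi (Nat.not_lt_zero i)
  | j + 1, hj, hi => by
    rcases Nat.lt_succ_iff_lt_or_eq.1 hi with h3 | rfl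
    · have h4 : d * i ≠ d * j := fun e =>
        absurd (Nat.eq_of_mul_eq_mul_left (by omega) e) (by omega)
      have h5 : d * i + 1 ≠ d * j := fun e => by
        have h6 : d ∣ d * i + 1 := ⟨j, e⟩
        have h7 : d ∣ 1 := (Nat.dvd_add_right ⟨i, rfl⟩).1 h6
        have := Nat.le_of_dvd one_pos h7
        omega
      have e := LinearEquiv.ofBijective _ (lesB_bij (k := k) C h2 (by omega : j ≤ h) h4 h5)
      rw [e.finrank_eq]
      exact finrank_L h2 hd (by omega) h3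
    · have e := LinearEquiv.ofBijective _ (lesA_bij (k := k) C h2 hd (by omega : i ≤ h))
      rw [← e.finrank_eq, finrank_rel C h2 (by omega)]

include C in
/-- **`H^{d i}(M)` is a line for `i ≤ h`.** -/
theorem finrank_M (h2 : (2 : k) ≠ 0) (hd : 2 ≤ d) {i : ℕ} (hi : i ≤ h) :
    Module.finrank k (Hr (tr M) (on k) (univ : Set M) ∅ (d * i)) = 1 := by
  rw [← C.L_top]
  exact finrank_L C h2 hd le_rfl (by omega)

include C in
/-- The same for the absolute groups. -/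
theorem finrank_HU (h2 : (2 : k) ≠ 0) (hd : 2 ≤ d) {i : ℕ} (hi : i ≤ h) :
    Module.finrank k (B64.HU k (univ : Set M) (d * i)) = 1 := by
  rw [(absE k (univ : Set M) (d * i)).finrank_eq]
  exact finrank_M C h2 hd hi

include C in
/-- **The top class.** -/
theorem c2 (h2 : (2 : k) ≠ 0) (hd : 2 ≤ d) {i : ℕ} (hi : i ≤ h) :
    ∃ x : Hr (tr M) (on k) (univ : Set M) ∅ (d * i), x ≠ 0 := by
  have h1 := finrank_M (k := k) C h2 hd hi
  have : Nontrivial (Hr (tr M) (on k) (univ : Set M) ∅ (d * i)) :=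
    Module.nontrivial_of_finrank_pos (by rw [h1]; exact one_pos)
  exact exists_ne 0

/-- Restriction to `L j` is onto in degree `q` if `q + 1` is no multiple of `d`. -/
theorem resL_surj (h2 : (2 : k) ≠ 0) {q : ℕ} (hq : ¬ d ∣ q + 1) {i : ℕ} : ∀ {j : ℕ},
    j ≤ h + 1 → ∀ (hij : i ≤ j), Function.Surjective
      (resR (C.L_mono hij) subset_rfl q : Hr (tr M) (on k) (C.L j) ∅ q →ₗ[k]
        Hr (tr M) (on k) (C.L i) ∅ q)
  | 0, _, hij, x => by
    obtain rfl : i = 0 := by omega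
    exact ⟨x, Hinc_refl _ _ x⟩
  | j + 1, hj, hij, x => by
    rcases Nat.le_succ_iff.1 hij with h3 | rfl
    · obtain ⟨y, rfl⟩ := resL_surj h2 hq (by omega : j ≤ h + 1) h3 x
      obtain ⟨z, rfl⟩ := (les_ex2 k (L_sub C j) q y).1
        (relVan C h2 (by omega) (fun e => hq ⟨j, e⟩) _)
      refine ⟨z, ?_⟩
      obtain ⟨c, hc, rfl⟩ := H.exists_mk z
      rfl
    · exact ⟨x, Hinc_refl _ _ x⟩

/-- **A class of `M` which is not zero on `L (i + 1)`.** -/
theorem resL (h2 : (2 : k) ≠ 0) (hd : 2 ≤ d) {i : ℕ} (hi : i ≤ h) :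
    ∃ x : Hr (tr M) (on k) (univ : Set M) ∅ (d * i),
      resR (subset_univ (C.L (i + 1))) subset_rfl (d * i) x ≠ 0 := by
  have h1 := finrank_L (k := k) C h2 hd (show i + 1 ≤ h + 1 by omega) (Nat.lt_succ_self i)
  have : Nontrivial (Hr (tr M) (on k) (C.L (i + 1)) ∅ (d * i)) :=
    Module.nontrivial_of_finrank_pos (by rw [h1]; exact one_pos)
  obtain ⟨y, hy⟩ := exists_ne (0 : Hr (tr M) (on k) (C.L (i + 1)) ∅ (d * i))
  have hq : ¬ d ∣ d * i + 1 := fun h6 => by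
    have h7 : d ∣ 1 := (Nat.dvd_add_right ⟨i, rfl⟩).1 h6
    have := Nat.le_of_dvd one_pos h7
    omega
  obtain ⟨x, hx⟩ := resL_surj (k := k) C h2 hq le_rfl (show i + 1 ≤ h + 1 by omega) y
  have key : ∀ (Y : Set M) (hY : C.L (i + 1) ⊆ Y), Y = C.L (h + 1) →
      ∃ x : Hr (tr M) (on k) Y ∅ (d * i), resR hY subset_rfl (d * i) x ≠ 0 := by
    rintro _ _ rfl
    exact ⟨x, by rw [hx]; exact hy⟩
  exact key _ _ C.L_top.symm

/-- **347's form.** -/
theorem resL2 (h2 : (2 : k) ≠ 0) (hd : 2 ≤ d) (hh : 1 ≤ h) :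
    ∃ x : Hr (tr M) (on k) (univ : Set M) ∅ d,
      resR (subset_univ (C.L 2)) subset_rfl d x ≠ 0 := by
  have := resL (k := k) C h2 hd hh
  rwa [Nat.mul_one] at this

end Dec

end Vale.Agent.P216.H892
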