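import Vale.Agent.P216.H892.CellPt
import Vale.Agent.P216.B64.GoalsC

/-!
# P216-C: the cohomology of a space with a handle decomposition (algebra)

`finM_of_cellDec`: if the compact metric space `M` has a handle decomposition, then its cohomology
is finite dimensional and vanishes in high degrees (characteristic not `2`).

`hM_zero`: it vanishes in the degrees which are not multiples of `d`.
-/

set_option linter.all false

open Set

namespace Vale.Agent.P216.H892

open Vale.Agent.P216.AS Vale.Agent.P216.H901 Vale.Agent.P216.H133C Vale.Agent.P216.H83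
  Vale.Agent.P216.H550

variable {k : Type} [Field k]

/-! ### The point -/

section Point

theorem mem_Zc_pt {q : ℕ} (c : (Fin (q + 1) → PUnit) → k)
    (hc : c ∈ Zc (Zr (tr PUnit) (on k) (univ : Set PUnit) ∅) (Zr (tr PUnit) (on k) univ univ) q)
    (y : Fin (q + 1 + 1) → PUnit) : P265.AS.d c y = 0 := by
  obtain ⟨ε, hε, h⟩ := hc.2.2
  exact h y ⟨fun _ => trivial, fun i j => by
    have : dist (y i) (y j) = 0 := by rw [Subsingleton.elim (y i) (y j), dist_self]
    rw [this]; exact hε⟩

/-- The cohomology of a point is finite dimensional. -/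
theorem pt_finite (q : ℕ) :
    Module.Finite k (Hr (tr PUnit) (on k) (univ : Set PUnit) ∅ q) := by
  have h1 : Module.Finite k ((Fin (q + 1) → PUnit) → k) := inferInstance
  have h2 : Module.Finite k (Zc (Zr (tr PUnit) (on k) (univ : Set PUnit) ∅)
      (Zr (tr PUnit) (on k) univ univ) q) := by
    have h1' : Module.Finite k ((ASK PUnit k).K q) := h1
    infer_instance
  exact Module.Finite.of_surjective (H.mkL _ _ q) H.mkL_surjective

/-- The cohomology of a point vanishes in positive degrees. -/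
theorem pt_zero (q : ℕ) (x : Hr (tr PUnit) (on k) (univ : Set PUnit) ∅ (q + 1)) : x = 0 := by
  obtain ⟨c, hc, rfl⟩ := H.exists_mk x
  refine H.mk_eq_zero.2 (mem_Bc_succ.2 ⟨fun y => c (Matrix.vecCons PUnit.unit y),
    ⟨fun i => i.elim, 1, one_pos, fun y hy => absurd (hy.1 0) (notMem_empty _)⟩, ?_⟩)
  refine ⟨fun i => i.elim, 1, one_pos, fun y _ => ?_⟩
  have h3 := mem_Zc_pt c hc (Matrix.vecCons PUnit.unit y)
  rw [P265.AS.d_cons, sub_eq_zero] at h3
  change c y - P265.AS.d (fun z : Fin (q + 1) → PUnit => c (Matrix.vecCons PUnit.unit z)) y = 0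
  rw [h3, sub_self]

end Point

/-- The middle term of an exact sequence. -/
theorem finite_mid {P X Q : Type} [AddCommGroup P] [Module k P] [AddCommGroup X] [Module k X]
    [AddCommGroup Q] [Module k Q] [Module.Finite k P] [Module.Finite k Q] {f : P →ₗ[k] X}
    {g : X →ₗ[k] Q} (h : Function.Exact f g) : Module.Finite k X := by
  have h1 : Module.Finite k (LinearMap.ker g) := by
    have : LinearMap.ker g = LinearMap.range f := LinearMap.exact_iff.1 h
    rw [this]
    infer_instance
  have h2 : Module.Finite k (X ⧸ LinearMap.ker g) :=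
    Module.Finite.equiv g.quotKerEquivRange.symm
  exact Module.Finite.of_submodule_quotient (LinearMap.ker g)

/-! ### Intervals with shift `0` -/

section Intl0

variable {A B : PM k}

theorem intl0_inj (I : Intl A B 0) : Function.Injective (I.f 1 1 one_pos (by norm_num)) := by
  intro x y h
  have h1 := I.gf 1 1 1 one_pos one_pos (by norm_num) (by norm_num) le_rfl x
  have h2 := I.gf 1 1 1 one_pos one_pos (by norm_num) (by norm_num) le_rfl y
  rw [A.ρ_refl] at h1 h2
  rw [← h1, ← h2, h]

theorem intl0_surj (I : Intl A B 0) : Function.Surjective (I.f 1 1 one_pos (by norm_num)) := by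
  intro x
  have h1 := I.fg 1 1 1 one_pos one_pos (by norm_num) (by norm_num) le_rfl x
  rw [B.ρ_refl] at h1
  exact ⟨_, h1⟩

/-- the isomorphism at level `1` -/
noncomputable def intl0E (I : Intl A B 0) : A.V 1 ≃ₗ[k] B.V 1 :=
  LinearEquiv.ofBijective _ ⟨intl0_inj I, intl0_surj I⟩

theorem eph0 (h : A.Eph (2 * 0)) (x : A.V 1) : x = 0 := by
  have := h 1 1 one_pos le_rfl (by norm_num) x
  rwa [A.ρ_refl] at this

end Intl0

/-! ### Handle decompositions -/

section Dec

variable {M : Type} [MetricSpace M] [CompactSpace M] {d h : ℕ} (C : CellDec M d h)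

/-- the cell system of `M` -/
noncomputable def sysM (k : Type) [Field k] (h2 : (2 : k) ≠ 0) :
    CellSys (h + 1) (fun q => pmX k (decPt C).Om_mono q)
      (fun j q => pmX k (ovr_mp (ev := (id : M → M)) (decPt C).Z_mono (C.L j)) q)
      (fun j => d * j) 0 := (decPt C).sys k h2

/-- `H^q (L j)` -/
abbrev HL (k : Type) [Field k] (j q : ℕ) : Type :=
  Hr (tr M) (on k) (ovr (id : M → M) (UM M) (C.L j) 1) ∅ q

theorem rel_zero_low (h2 : (2 : k) ≠ 0) {j : ℕ} (hj : j < h + 1) {q : ℕ} (hq : q < d * j)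
    (x : ((sysM C k h2).Rel j q).V 1) : x = 0 := eph0 ((sysM C k h2).low j hj q hq) x

theorem rel_zero (h2 : (2 : k) ≠ 0) {j : ℕ} (hj : j < h + 1) {q : ℕ} (hq : q ≠ d * j)
    (x : ((sysM C k h2).Rel j q).V 1) : x = 0 := by
  rcases lt_or_ge q (d * j) with h' | h'
  · exact rel_zero_low C h2 hj h' x
  · obtain ⟨r, rfl⟩ : ∃ r, q = r + 1 + d * j := ⟨q - 1 - d * j, by omega⟩
    refine intl0_inj ((sysM C k h2).i j hj (r + 1)) ?_
    rw [map_zero]
    exact pt_zero r _

theorem rel_finite (h2 : (2 : k) ≠ 0) {j : ℕ} (hj : j < h + 1) (q : ℕ) :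
    Module.Finite k (((sysM C k h2).Rel j q).V 1) := by
  rcases lt_or_ge q (d * j) with h' | h'
  · have : Subsingleton (((sysM C k h2).Rel j q).V 1) :=
      ⟨fun x y => by rw [rel_zero_low C h2 hj h' x, rel_zero_low C h2 hj h' y]⟩
    infer_instance
  · obtain ⟨r, rfl⟩ : ∃ r, q = r + d * j := ⟨q - d * j, by omega⟩
    have h1 : Module.Finite k ((pmX k (decPt C).Om_mono r).V 1) := pt_finite r
    exact Module.Finite.equiv (intl0E ((sysM C k h2).i j hj r)).symm

theorem HL_finite (h2 : (2 : k) ≠ 0) : ∀ (j : ℕ), j ≤ h + 1 → ∀ q, Module.Finite k (HL C k j q)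
  | 0, _, q => by
    have : Subsingleton (HL C k 0 q) := ⟨fun x y => by
      rw [(decPt C).zero0 k q 1 x, (decPt C).zero0 k q 1 y]⟩
    infer_instance
  | j + 1, hj, 0 => by
    have h1 := rel_finite C h2 hj 0
    have h3 : Module.Finite k (HL C k j 0) := HL_finite h2 j (by omega) 0
    have h4 : Module.Finite k ((pmX k (ovr_mp (ev := (id : M → M)) (decPt C).Z_mono
      (C.L j)) 0).V 1) := h3
    exact finite_mid (((sysM C k h2).e0 j hj).exX 1 one_pos)
  | j + 1, hj, q + 1 => by
    have h1 := rel_finite C h2 hj (q + 1)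
    have h3 : Module.Finite k (HL C k j (q + 1)) := HL_finite h2 j (by omega) (q + 1)
    have h4 : Module.Finite k ((pmX k (ovr_mp (ev := (id : M → M)) (decPt C).Z_mono
      (C.L j)) (q + 1)).V 1) := h3
    exact finite_mid (((sysM C k h2).e j hj q).exX 1 one_pos)

/-- The cohomology of `L j` lives in the degrees `d * i`, `i < j`. -/
theorem HL_zero (h2 : (2 : k) ≠ 0) : ∀ (j : ℕ), j ≤ h + 1 → ∀ q, (∀ i < j, q ≠ d * i) →
    ∀ x : HL C k j q, x = 0
  | 0, _, q, _, x => (decPt C).zero0 k q 1 x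
  | j + 1, hj, 0, hq, x => by
    have h1 : ((sysM C k h2).e0 j hj).β 1 one_pos x = 0 :=
      HL_zero h2 j (by omega) 0 (fun i hi => hq i (by omega)) _
    obtain ⟨y, hy⟩ := (((sysM C k h2).e0 j hj).exX 1 one_pos x).1 h1
    rw [rel_zero C h2 hj (hq j (by omega)) y, map_zero] at hy
    exact hy.symm
  | j + 1, hj, q + 1, hq, x => by
    have h1 : ((sysM C k h2).e j hj q).β 1 one_pos x = 0 :=
      HL_zero h2 j (by omega) (q + 1) (fun i hi => hq i (by omega)) _
    obtain ⟨y, hy⟩ := (((sysM C k h2).e j hj q).exX 1 one_pos x).1 h1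
    rw [rel_zero C h2 hj (hq j (by omega)) y, map_zero] at hy
    exact hy.symm

/-- `L (h + 1) = M`. -/
theorem HL_top (q : ℕ) : Nonempty (HL C k (h + 1) q ≃ₗ[k] B64.HU k (univ : Set M) q) := by
  have e : ovr (id : M → M) (UM M) (C.L (h + 1)) 1 = univ := by
    rw [ovr_id, C.L_top]
  have key : ∀ Y : Set M, Y = univ → Nonempty (Hr (tr M) (on k) Y ∅ q ≃ₗ[k]
      B64.HU k (univ : Set M) q) := by
    rintro Y rfl
    exact ⟨(absE k univ q).symm⟩
  exact key _ e

include C

/-- **The cohomology of `M` is finite dimensional.** -/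
theorem hM_finite (h2 : (2 : k) ≠ 0) (q : ℕ) : Module.Finite k (B64.HU k (univ : Set M) q) := by
  obtain ⟨e⟩ := HL_top (k := k) C q
  have := HL_finite C h2 (h + 1) le_rfl q
  exact Module.Finite.equiv e

/-- **The cohomology of `M` vanishes outside of the degrees `d * i`, `i ≤ h`.** -/
theorem hM_zero (h2 : (2 : k) ≠ 0) (q : ℕ) (hq : ∀ i ≤ h, q ≠ d * i)
    (x : B64.HU k (univ : Set M) q) : x = 0 := by
  obtain ⟨e⟩ := HL_top (k := k) C q
  have := HL_zero C h2 (h + 1) le_rfl q (fun i hi => hq i (by omega)) (e.symm x)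
  rwa [LinearEquiv.map_eq_zero_iff] at this

/-- `FinM` in characteristic not `2`. -/
theorem finM2_of_cellDec (h2 : (2 : k) ≠ 0) :
    (∀ q, Module.Finite k (B64.HU k (univ : Set M) q)) ∧
      ∃ N, ∀ q ≥ N, Subsingleton (B64.HU k (univ : Set M) q) := by
  refine ⟨hM_finite C h2, d * h + 1, fun q hq => ⟨fun x y => ?_⟩⟩
  have h1 : ∀ i ≤ h, q ≠ d * i := fun i hi he => by
    have := Nat.mul_le_mul_left d hi
    omega
  rw [hM_zero C h2 q h1 x, hM_zero C h2 q h1 y]

end Dec

end Vale.Agent.P216.H892
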