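import Vale.Agent.P216.H550.Lin

/-!
# P216-C: the line property over a cell filtration

`X j q` = `H^q` of the loops over the `j`-th member of a cell filtration (`j ≤ H`), `G q` = `H^q`
of the based loops, `Rel j q` = `H^q` of the pair (loops over the member `j + 1`, loops over the
member `j`), interleaved with `G (q - n j)` (`n j` = dimension of the cell, `j < H`).  If the
modules `G q` are step modules with the walls `T q` (steps of the walls bounded by `a`), then so are
the `X j q`, with explicit constants.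
-/

set_option linter.all false

namespace Vale.Agent.P216.H901

variable {k : Type} [Field k]

/-- The data of a cell filtration with `H` cells. -/
structure CellSys (H : ℕ) (G : ℕ → PM k) (X : ℕ → ℕ → PM k) (n : ℕ → ℕ) (c : ℝ) where
  Rel : ℕ → ℕ → PM k
  N : ℕ → PM k
  N0 : ∀ j t, 0 < t → ∀ x : (N j).V t, x = 0
  /-- long exact sequence, degree `0` -/
  e0 : ∀ j, j < H → Ex5 (N j) (Rel j 0) (X (j + 1) 0) (X j 0) (Rel j 1)
  /-- long exact sequence -/
  e : ∀ j, j < H → ∀ q, Ex5 (X j q) (Rel j (q + 1)) (X (j + 1) (q + 1)) (X j (q + 1))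
    (Rel j (q + 2))
  i : ∀ j, j < H → ∀ q, Intl (Rel j (q + n j)) (G q) c
  low : ∀ j, j < H → ∀ q, q < n j → (Rel j q).Eph (2 * c)

theorem wall_add {T : ℕ → ℝ} {a : ℝ} (h : ∀ q, |T (q + 1) - T q| ≤ a) (r : ℕ) :
    ∀ m : ℕ, |T (r + m) - T r| ≤ a * m
  | 0 => by simp
  | m + 1 => by
    have h1 := wall_add h r m
    have h2 := h (r + m)
    have h3 := abs_sub_le (T (r + (m + 1))) (T (r + m)) (T r)
    have h4 : a * ((m + 1 : ℕ) : ℝ) = a + a * m := by push_cast; ring
    rw [h4]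
    exact h3.trans (add_le_add h2 h1)

namespace CellSys

variable {H : ℕ} {G : ℕ → PM k} {X : ℕ → ℕ → PM k} {n : ℕ → ℕ} {c : ℝ}

/-- The relative modules. -/
theorem rel_step (S : CellSys H G X n c) (hc : 0 ≤ c) {T : ℕ → ℝ} {a C : ℝ} (ha : 0 ≤ a)
    (hT : ∀ q, 0 ≤ T q) (hs : ∀ q, |T (q + 1) - T q| ≤ a) (hC : 0 < C)
    (hG : ∀ q : ℕ, (G q).Step (T q) C) (j : ℕ) (hj : j < H) (q : ℕ) :
    (S.Rel j q).Step (T q) (C + 2 * c + a * n j) := by
  have h3 : 0 ≤ a * n j := mul_nonneg ha (Nat.cast_nonneg _)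
  rcases lt_or_ge q (n j) with h | h
  · exact ((S.low j hj q h).step (T q)).mono' (by linarith)
  · obtain ⟨r, rfl⟩ : ∃ r, q = r + n j := ⟨q - n j, by omega⟩
    have h1 := (S.i j hj r).step hc (T := T r) (hT r) hC (hG r)
    refine h1.mono ?_
    have := wall_add hs r (n j)
    linarith

/-- The constants. -/
noncomputable def K (a C c : ℝ) (n : ℕ → ℕ) : ℕ → ℝ → ℝ
  | 0, C₀ => C₀
  | j + 1, C₀ => 3 * (K a C c n j C₀ + (C + 2 * c + a * n j) + a)

theorem K_pos {a C C₀ : ℝ} (ha : 0 ≤ a) (hC : 0 < C) (hc : 0 ≤ c) (h0 : 0 < C₀) (j : ℕ) :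
    0 < K a C c n j C₀ := by
  induction j with
  | zero => exact h0
  | succ j ih =>
      have h3 : 0 ≤ a * n j := mul_nonneg ha (Nat.cast_nonneg _)
      rw [K]
      linarith

theorem K_mono {a C C₀ : ℝ} (ha : 0 ≤ a) (hC : 0 < C) (hc : 0 ≤ c) (h0 : 0 < C₀) (j : ℕ) :
    K a C c n j C₀ ≤ K a C c n (j + 1) C₀ := by
  have h3 : 0 ≤ a * n j := mul_nonneg ha (Nat.cast_nonneg _)
  have := K_pos (n := n) ha hC hc h0 j
  rw [show K a C c n (j + 1) C₀ = 3 * (K a C c n j C₀ + (C + 2 * c + a * n j) + a) from rfl]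
  linarith

/-- **The line property over a cell filtration.** -/
theorem step (S : CellSys H G X n c) (hc : 0 ≤ c) {T : ℕ → ℝ} {a C C₀ : ℝ} (ha : 0 ≤ a)
    (hT : ∀ q, 0 ≤ T q) (hs : ∀ q, |T (q + 1) - T q| ≤ a) (hC : 0 < C) (h0 : 0 < C₀)
    (hG : ∀ q : ℕ, (G q).Step (T q) C) (hX : ∀ q : ℕ, (X 0 q).Step (T q) C₀)
    (j : ℕ) (hj : j ≤ H) : ∀ q : ℕ, (X j q).Step (T q) (K a C c n j C₀) := by
  induction j with
  | zero => exact hX
  | succ j ih =>
      have hj' : j < H := hj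
      have ih := ih hj'.le
      have h3 : 0 ≤ a * n j := mul_nonneg ha (Nat.cast_nonneg _)
      have hK := K_pos (c := c) (n := n) ha hC hc h0 j
      have hR := S.rel_step hc ha hT hs hC hG j hj'
      intro q
      rw [K]
      rcases q with _ | q
      · refine (S.e0 j hj').step (hT 0) (by linarith) (PM.step_of_zero (S.N0 j) _)
          ((hR 0).mono' (by linarith)) ((ih 0).mono' (by linarith)) ((hR 1).mono ?_)
        have := hs 0
        rw [abs_sub_comm] at this
        linarith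
      · have e1 := hs q
        have e2 := hs (q + 1)
        rw [abs_sub_comm] at e2
        refine (S.e j hj' q).step (hT _) (by linarith) ((ih q).mono ?_)
          ((hR (q + 1)).mono' (by linarith)) ((ih (q + 1)).mono' (by linarith))
          ((hR (q + 2)).mono ?_)
        · linarith
        · linarith

/-- The case `X 0 = 0`. -/
theorem step' (S : CellSys H G X n c) (hc : 0 ≤ c) {T : ℕ → ℝ} {a C : ℝ} (ha : 0 ≤ a)
    (hT : ∀ q, 0 ≤ T q) (hs : ∀ q, |T (q + 1) - T q| ≤ a) (hC : 0 < C)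
    (hG : ∀ q : ℕ, (G q).Step (T q) C) (hX : ∀ q t, 0 < t → ∀ x : (X 0 q).V t, x = 0)
    (j : ℕ) (hj : j ≤ H) : ∀ q : ℕ, (X j q).Step (T q) (K a C c n j C) :=
  S.step hc ha hT hs hC hC hG (fun q => PM.step_of_zero (hX q) _) j hj

end CellSys

end Vale.Agent.P216.H901
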