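import Vale.Agent.P216.B64.Contract

/-!
# The Čech exact couple of Alexander-Spanier cohomology (P216-D, block [E2])

`X` a set in a metric space, `A v`, `v : ι`, a cover of the small tuples of `X` (`Cov X A`).
`CA m` = the complex of the cochains `F i x`, `i` a tuple of `m` indices, `x` a tuple of points;
`WZ X A m` = the `F` vanishing on the small tuples of `X ∩ A_i`; `ZZ X A m` = the `F` with
`dh F` in `WZ X A (m + 1)`, `dh` the Čech differential.

* `DD m b = H (ZZ m) (WZ m) b`, `EE m b = H ⊤ (WZ m) b = ∏_i H^b(X ∩ A_i)` (`EE 0 b = H^b(X)`).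
* exact couple `DD m b → EE m b → DD (m + 1) b → DD m (b + 1) → EE m (b + 1)`, `DD 0 b = 0`.
-/

set_option linter.unusedVariables false

open Set Matrix

namespace Vale.Agent.P216.H892

open Vale.Agent.P216.AS Vale.Agent.P216.B64

/-! ### The differential of functions of tuples, with values in a group -/

section dV

variable {ι ι' V V' : Type} [AddCommGroup V] [AddCommGroup V']

/-- The coboundary of a function of `m` indices. -/
def dV : {m : ℕ} → ((Fin m → ι) → V) → ((Fin (m + 1) → ι) → V)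
  | 0, c, x => c (vecTail x)
  | _ + 1, c, x => c (vecTail x) - dV (fun y => c (vecCons (vecHead x) y)) (vecTail x)

theorem dV_zero_apply (c : (Fin 0 → ι) → V) (x : Fin 1 → ι) : dV c x = c (vecTail x) := rfl

theorem dV_succ_apply {m : ℕ} (c : (Fin (m + 1) → ι) → V) (x : Fin (m + 2) → ι) :
    dV c x = c (vecTail x) - dV (fun y => c (vecCons (vecHead x) y)) (vecTail x) := rfl

theorem dV_cons {m : ℕ} (c : (Fin (m + 1) → ι) → V) (a : ι) (x : Fin (m + 1) → ι) :
    dV c (vecCons a x) = c x - dV (fun y => c (vecCons a y)) x := by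
  rw [dV_succ_apply, tail_cons, head_cons]

theorem dV_cons_zero (c : (Fin 0 → ι) → V) (a : ι) (x : Fin 0 → ι) :
    dV c (vecCons a x) = c x := by
  rw [dV_zero_apply, tail_cons]

theorem dV_sum {m : ℕ} (c : (Fin m → ι) → V) (x : Fin (m + 1) → ι) :
    dV c x = ∑ j : Fin (m + 1), (-1 : ℤ) ^ (j : ℕ) • c (x ∘ j.succAbove) := by
  induction m with
  | zero =>
    rw [dV_zero_apply, Fin.sum_univ_one]
    simp only [Fin.val_zero, pow_zero, one_smul]
    rfl
  | succ m ih =>
    rw [dV_succ_apply, ih]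
    conv_rhs => rw [Fin.sum_univ_succ]
    simp only [Fin.val_zero, pow_zero, one_smul, Fin.val_succ]
    rw [sub_eq_add_neg]
    congr 1
    rw [← Finset.sum_neg_distrib]
    refine Finset.sum_congr rfl fun j _ => ?_
    rw [pow_succ, mul_neg_one, neg_smul]
    congr 3
    funext l
    refine Fin.cases ?_ (fun l => ?_) l
    · simp [vecHead]
    · simp [vecTail, Fin.succ_succAbove_succ]

theorem dV_map (L : V →+ V') {m : ℕ} (c : (Fin m → ι) → V) (x : Fin (m + 1) → ι) :
    L (dV c x) = dV (fun i => L (c i)) x := by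
  rw [dV_sum, dV_sum, map_sum]
  refine Finset.sum_congr rfl fun j _ => ?_
  rw [map_zsmul]

theorem dV_add {m : ℕ} (c c' : (Fin m → ι) → V) : dV (c + c') = dV c + dV c' := by
  funext x
  simp only [dV_sum, Pi.add_apply, smul_add, Finset.sum_add_distrib]

theorem dV_sub {m : ℕ} (c c' : (Fin m → ι) → V) : dV (c - c') = dV c - dV c' := by
  funext x
  simp only [dV_sum, Pi.sub_apply, smul_sub, Finset.sum_sub_distrib]

theorem dV_zero {m : ℕ} : dV (0 : (Fin m → ι) → V) = 0 := by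
  funext x
  simp [dV_sum]

theorem dV_smul {R : Type} [Ring R] [Module R V] {m : ℕ} (a : R) (c : (Fin m → ι) → V) :
    dV (a • c) = a • dV c := by
  funext x
  simp only [dV_sum, Pi.smul_apply, Finset.smul_sum]
  exact Finset.sum_congr rfl fun j _ => smul_comm _ _ _

theorem dV_pb (κ : ι → ι') {m : ℕ} (c : (Fin m → ι') → V) (x : Fin (m + 1) → ι) :
    dV c (κ ∘ x) = dV (fun y => c (κ ∘ y)) x := by
  rw [dV_sum, dV_sum]
  rfl

theorem dV_dV {m : ℕ} (c : (Fin m → ι) → V) : dV (dV c) = 0 := by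
  induction m with
  | zero =>
    funext x
    rw [dV_succ_apply, dV_zero_apply]
    rw [show (fun y => dV c (vecCons (vecHead x) y)) = c from by
      funext y
      rw [dV_zero_apply, tail_cons]]
    simp [dV_zero_apply]
  | succ m ih =>
    funext x
    rw [dV_succ_apply]
    rw [show (fun y => dV c (vecCons (vecHead x) y)) =
      c - dV (fun y => c (vecCons (vecHead x) y)) from by
        funext y
        rw [dV_cons]; rfl]
    rw [dV_sub, ih]
    simp

end dV

/-! ### The complexes -/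

section Cech

variable (k : Type) [Field k] (E ι : Type)

/-- The ambient complex: `m` indices. -/
abbrev CA (m : ℕ) : Amb k where
  K n := (Fin m → ι) → (Fin (n + 1) → E) → k
  d n := LinearMap.pi fun i => (P265.AS.dL E k (n + 1)).comp (LinearMap.proj i)
  d_d n x := by
    funext i
    exact P265.AS.d_d (x i)

variable {k E ι}

theorem CA_d {m n : ℕ} (F : (Fin m → ι) → (Fin (n + 1) → E) → k) (i : Fin m → ι) :
    (CA k E ι m).d n F i = P265.AS.d (F i) := rfl

/-- The Čech differential as a linear map. -/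
def dhL (k E ι : Type) [Field k] (m n : ℕ) :
    ((Fin m → ι) → (Fin n → E) → k) →ₗ[k] ((Fin (m + 1) → ι) → (Fin n → E) → k) where
  toFun := dV
  map_add' := dV_add
  map_smul' a c := dV_smul a c

theorem dhL_apply {m n : ℕ} (F : (Fin m → ι) → (Fin n → E) → k) : dhL k E ι m n F = dV F := rfl

theorem d_dV {m n : ℕ} (F : (Fin m → ι) → (Fin (n + 1) → E) → k) (i : Fin (m + 1) → ι) :
    P265.AS.d (dV F i) = dV (fun i' => P265.AS.d (F i')) i :=
  dV_map (P265.AS.dL E k (n + 1)).toAddMonoidHom F i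

theorem dV_eval {m n : ℕ} (F : (Fin m → ι) → (Fin n → E) → k) (i : Fin (m + 1) → ι)
    (x : Fin n → E) : dV F i x = dV (fun i' => F i' x) i :=
  dV_map (Pi.evalAddMonoidHom (fun _ : Fin n → E => k) x) F i

/-- The part of `X` in all the `A (i j)`. -/
def XA (X : Set E) (A : ι → Set E) {m : ℕ} (i : Fin m → ι) : Set E :=
  {x | x ∈ X ∧ ∀ j, x ∈ A (i j)}

theorem XA_mono {X Y : Set E} (h : X ⊆ Y) (A : ι → Set E) {m : ℕ} (i : Fin m → ι) :
    XA X A i ⊆ XA Y A i := fun _ hx => ⟨h hx.1, hx.2⟩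

theorem XA_sub {X : Set E} {A : ι → Set E} {m m' : ℕ} {i : Fin m → ι} {i' : Fin m' → ι}
    (h : ∀ j, ∃ l, i j = i' l) : XA X A i' ⊆ XA X A i := fun x hx =>
  ⟨hx.1, fun j => by
    obtain ⟨l, hl⟩ := h j
    rw [hl]
    exact hx.2 l⟩

theorem XA_comp {X : Set E} {A : ι → Set E} {m m' : ℕ} (i : Fin m → ι) (f : Fin m' → Fin m) :
    XA X A i ⊆ XA X A (i ∘ f) := XA_sub fun j => ⟨f j, rfl⟩

theorem XA_subset {X : Set E} {A : ι → Set E} {m : ℕ} (i : Fin m → ι) : XA X A i ⊆ X :=
  fun _ h => h.1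

theorem XA_zero {X : Set E} {A : ι → Set E} (i : Fin 0 → ι) : XA X A i = X :=
  Subset.antisymm (XA_subset i) fun _ h => ⟨h, fun j => j.elim0⟩

variable [PseudoMetricSpace E]

/-- `F` vanishes on the small tuples of the `X ∩ A_i`. -/
def LZ (X : Set E) (A : ι → Set E) {m n : ℕ} (F : (Fin m → ι) → (Fin n → E) → k) : Prop :=
  ∃ ε > 0, ∀ i x, Sm (XA X A i) ε x → F i x = 0

variable {X Y : Set E} {A : ι → Set E} {m n : ℕ}

theorem LZ.mono {F : (Fin m → ι) → (Fin n → E) → k} (h : LZ Y A F) (hXY : X ⊆ Y) : LZ X A F := by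
  obtain ⟨ε, hε, h⟩ := h
  exact ⟨ε, hε, fun i x hx => h i x (hx.mono (XA_mono hXY A i) le_rfl)⟩

theorem lz_zero : LZ X A (0 : (Fin m → ι) → (Fin n → E) → k) := ⟨1, one_pos, fun _ _ _ => rfl⟩

theorem LZ.add {F F' : (Fin m → ι) → (Fin n → E) → k} (h : LZ X A F) (h' : LZ X A F') :
    LZ X A (F + F') := by
  obtain ⟨ε, hε, h⟩ := h
  obtain ⟨ε', hε', h'⟩ := h'
  refine ⟨min ε ε', lt_min hε hε', fun i x hx => ?_⟩
  rw [Pi.add_apply, Pi.add_apply, h i x (hx.mono le_rfl (min_le_left _ _)),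
    h' i x (hx.mono le_rfl (min_le_right _ _)), add_zero]

theorem LZ.smul {F : (Fin m → ι) → (Fin n → E) → k} (c : k) (h : LZ X A F) : LZ X A (c • F) := by
  obtain ⟨ε, hε, h⟩ := h
  exact ⟨ε, hε, fun i x hx => by rw [Pi.smul_apply, Pi.smul_apply, h i x hx, smul_zero]⟩

theorem LZ.sub {F F' : (Fin m → ι) → (Fin n → E) → k} (h : LZ X A F) (h' : LZ X A F') :
    LZ X A (F - F') := by
  have := h.add (h'.smul (-1))
  rwa [neg_one_smul, ← sub_eq_add_neg] at this

theorem LZ.dpt {F : (Fin m → ι) → (Fin (n + 1) → E) → k} (h : LZ X A F) :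
    LZ X A (fun i => P265.AS.d (F i)) := by
  obtain ⟨ε, hε, h⟩ := h
  exact ⟨ε, hε, fun i x hx => P265.AS.d_eq_zero fun y hy => h i y (hx.sub hy)⟩

/-- `dh` maps locally vanishing cochains to such. -/
theorem LZ.dh {F : (Fin m → ι) → (Fin n → E) → k} (h : LZ X A F) : LZ X A (dV F) := by
  obtain ⟨ε, hε, h⟩ := h
  refine ⟨ε, hε, fun i x hx => ?_⟩
  rw [dV_eval, dV_sum]
  refine Finset.sum_eq_zero fun j _ => ?_
  rw [h (i ∘ j.succAbove) x (hx.mono (XA_comp i _) le_rfl), smul_zero]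

variable (k)

/-- The locally vanishing cochains. -/
def WZ (X : Set E) (A : ι → Set E) (m : ℕ) : AS.Sub (CA k E ι m) where
  S _ :=
    { carrier := {F | LZ X A F}
      zero_mem' := lz_zero
      add_mem' := fun h h' => h.add h'
      smul_mem' := fun c _ h => h.smul c }
  d_mem h := h.dpt

/-- The cochains with locally vanishing Čech differential. -/
def ZZ (X : Set E) (A : ι → Set E) (m : ℕ) : AS.Sub (CA k E ι m) where
  S _ :=
    { carrier := {F | LZ X A (dV F)}
      zero_mem' := by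
        show LZ X A (dV 0)
        rw [dV_zero]
        exact lz_zero
      add_mem' := fun {F F'} h h' => by
        show LZ X A (dV (F + F'))
        rw [dV_add]
        exact LZ.add h h'
      smul_mem' := fun c F h => by
        show LZ X A (dV (c • F))
        rw [dV_smul]
        exact LZ.smul c h }
  d_mem {n F} h := by
    show LZ X A (dV fun i => P265.AS.d (F i))
    have h1 : (dV fun i => P265.AS.d (F i)) = fun i => P265.AS.d (dV F i) := by
      funext i
      exact (d_dV F i).symm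
    rw [h1]
    exact LZ.dpt h

variable {k}

theorem mem_WZ {F : (Fin m → ι) → (Fin (n + 1) → E) → k} : F ∈ WZ k X A m n ↔ LZ X A F := Iff.rfl

theorem mem_ZZ {F : (Fin m → ι) → (Fin (n + 1) → E) → k} : F ∈ ZZ k X A m n ↔ LZ X A (dV F) :=
  Iff.rfl

theorem WZ_le_ZZ : WZ k X A m ≤ ZZ k X A m := fun _ _ h => LZ.dh h

theorem WZ_anti (h : X ⊆ Y) : WZ k Y A m ≤ WZ k X A m := fun _ _ hF => LZ.mono hF h

theorem ZZ_anti (h : X ⊆ Y) : ZZ k Y A m ≤ ZZ k X A m := fun _ _ hF => LZ.mono hF h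

variable (k)

/-- The cohomology of the Čech cocycles. -/
abbrev DD (X : Set E) (A : ι → Set E) (m b : ℕ) : Type := H (ZZ k X A m) (WZ k X A m) b

/-- The cohomology of the Čech cochains, `∏_i H^b(X ∩ A_i)`. -/
abbrev EE (X : Set E) (A : ι → Set E) (m b : ℕ) : Type :=
  H (⊤ : AS.Sub (CA k E ι m)) (WZ k X A m) b

/-- The cohomology of the quotient. -/
abbrev QQ (X : Set E) (A : ι → Set E) (m b : ℕ) : Type :=
  H (⊤ : AS.Sub (CA k E ι m)) (ZZ k X A m) b

variable {k}

theorem isMor_dh : IsMor (⊤ : AS.Sub (CA k E ι m)) (ZZ k X A m) (ZZ k X A (m + 1))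
    (WZ k X A (m + 1)) fun n => dhL k E ι m (n + 1) :=
  IsMor.of_comm (fun {n x} _ => by
      show LZ X A (dV (dV x))
      rw [dV_dV]
      exact lz_zero) (fun {n x} h => h) fun n x => by
    funext i
    exact d_dV x i

theorem isMor_dh' : IsMor (⊤ : AS.Sub (CA k E ι m)) (WZ k X A m) (ZZ k X A (m + 1))
    (WZ k X A (m + 1)) fun n => dhL k E ι m (n + 1) :=
  isMor_dh.mono le_rfl (fun hx => isMor_dh.mapS hx) (fun hx => LZ.dh hx) le_rfl

/-- The small tuples of `X` lie in some `A v`. -/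
def Cov (X : Set E) (A : ι → Set E) : Prop :=
  ∃ ε > 0, ∀ (n : ℕ) (x : Fin (n + 1) → E), Sm X ε x → ∃ v, ∀ j, x j ∈ A v

theorem Cov.mono (h : Cov Y A) (hXY : X ⊆ Y) : Cov X A := by
  obtain ⟨ε, hε, h⟩ := h
  exact ⟨ε, hε, fun n x hx => h n x (hx.mono hXY le_rfl)⟩

/-- the contraction of the rows -/
noncomputable def cone (A : ι → Set E) {m n : ℕ} (G : (Fin (m + 1) → ι) → (Fin n → E) → k) :
    (Fin m → ι) → (Fin n → E) → k := by
  classical
  exact fun i x => if h : ∃ v, ∀ j, x j ∈ A v then G (vecCons h.choose i) x else 0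

theorem cons_mem_XA {v : ι} {i : Fin m → ι} {x : Fin n → E} {ε : ℝ} (hx : Sm (XA X A i) ε x)
    (hv : ∀ j, x j ∈ A v) : Sm (XA X A (vecCons v i)) ε x :=
  ⟨fun j => ⟨(hx.1 j).1, fun l => by
    refine Fin.cases ?_ (fun l => ?_) l
    · exact hv j
    · exact (hx.1 j).2 l⟩, hx.2⟩

/-- Exactness of the rows. -/
theorem exists_dV (hc : Cov X A) {G : (Fin (m + 1) → ι) → (Fin (n + 1) → E) → k}
    (hG : LZ X A (dV G)) : LZ X A (G - dV (cone A G)) := by
  obtain ⟨ε, hε, hc⟩ := hc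
  obtain ⟨ε', hε', hG⟩ := hG
  refine ⟨min ε ε', lt_min hε hε', fun i x hx => ?_⟩
  have h := hc n x (hx.mono (XA_subset i) (min_le_left _ _))
  have h1 := hG (vecCons h.choose i) x
    ((cons_mem_XA hx h.choose_spec).mono le_rfl (min_le_right _ _))
  rw [dV_cons] at h1
  rw [Pi.sub_apply]
  rw [Pi.sub_apply, dV_eval] at h1
  rw [Pi.sub_apply, dV_eval]
  have h2 : (fun i' => cone A G i' x) = fun i' => G (vecCons h.choose i') x := by
    funext i'
    unfold cone
    rw [dif_pos h]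
  rw [h2]
  exact h1

theorem ZZ_zero (hc : Cov X A) : ZZ k X A 0 = WZ k X A 0 := by
  refine le_antisymm (fun n F hF => ?_) WZ_le_ZZ
  obtain ⟨ε, hε, hc⟩ := hc
  obtain ⟨ε', hε', hF⟩ := hF
  refine ⟨min ε ε', lt_min hε hε', fun i x hx => ?_⟩
  obtain ⟨v, hv⟩ := hc n x (hx.mono (XA_subset i) (min_le_left _ _))
  have h1 := hF (vecCons v i) x ((cons_mem_XA hx hv).mono le_rfl (min_le_right _ _))
  rwa [dV_cons_zero] at h1

/-! ### The exact couple -/

variable (k X A)

/-- `D → E` -/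
def incD (m b : ℕ) : DD k X A m b →ₗ[k] EE k X A m b := Hinc le_top le_rfl b

/-- `E m → D (m + 1)`, the Čech differential -/
def piE (m b : ℕ) : EE k X A m b →ₗ[k] DD k X A (m + 1) b := Hmap isMor_dh' b

/-- `Q m ≅ D (m + 1)` -/
def quo (m b : ℕ) : QQ k X A m b →ₗ[k] DD k X A (m + 1) b := Hmap isMor_dh b

variable {k X A}

theorem quo_bijective (hc : Cov X A) (m b : ℕ) : Function.Bijective (quo k X A m b) :=
  Hmap_bijective isMor_dh (fun {n x} _ h => h) fun {n y} hy =>
    ⟨cone A y, trivial, exists_dV hc hy⟩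

/-- `Q m ≃ D (m + 1)` -/
noncomputable def quoE (hc : Cov X A) (m b : ℕ) : QQ k X A m b ≃ₗ[k] DD k X A (m + 1) b :=
  LinearEquiv.ofBijective (quo k X A m b) (quo_bijective hc m b)

theorem quo_inc (m b : ℕ) (z : EE k X A m b) :
    quo k X A m b (Hinc le_rfl WZ_le_ZZ b z) = piE k X A m b z := by
  obtain ⟨x, hx, rfl⟩ := H.exists_mk z
  rfl

/-- `D (m + 1) b → D m (b + 1)` -/
noncomputable def delD (hc : Cov X A) (m b : ℕ) : DD k X A (m + 1) b →ₗ[k] DD k X A m (b + 1) :=
  (Hdel ⊤ (ZZ k X A m) (WZ k X A m) b) ∘ₗ (quoE hc m b).symm.toLinearMap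

theorem delD_quo (hc : Cov X A) (m b : ℕ) (z : QQ k X A m b) :
    delD hc m b (quo k X A m b z) = Hdel ⊤ (ZZ k X A m) (WZ k X A m) b z := by
  show Hdel ⊤ (ZZ k X A m) (WZ k X A m) b ((quoE hc m b).symm (quoE hc m b z)) = _
  rw [LinearEquiv.symm_apply_apply]

/-- `D → E → D` -/
theorem exact1 (hc : Cov X A) (m b : ℕ) :
    Function.Exact (incD k X A m b) (piE k X A m b) := by
  intro z
  refine Iff.trans ?_ (exact_mid (n := b) (R := (⊤ : AS.Sub (CA k E ι m))) WZ_le_ZZ le_top z)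
  rw [← quo_inc]
  constructor
  · intro h
    exact (quo_bijective hc m b).1 (h.trans (map_zero _).symm)
  · intro h
    rw [h, map_zero]

/-- `E → D → D` -/
theorem exact2 (hc : Cov X A) (m b : ℕ) :
    Function.Exact (piE k X A m b) (delD (k := k) hc m b) := by
  intro z
  obtain ⟨w, rfl⟩ := (quo_bijective hc m b).2 z
  rw [delD_quo, exact_del (n := b) (R := (⊤ : AS.Sub (CA k E ι m))) WZ_le_ZZ le_top w]
  constructor
  · rintro ⟨y, rfl⟩
    exact ⟨y, (quo_inc m b y).symm⟩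
  · rintro ⟨y, hy⟩
    rw [← quo_inc] at hy
    exact ⟨y, (quo_bijective hc m b).1 hy⟩

/-- `D → D → E` -/
theorem exact3 (hc : Cov X A) (m b : ℕ) :
    Function.Exact (delD (k := k) hc m b) (incD k X A m (b + 1)) := by
  intro z
  rw [show incD k X A m (b + 1) z = 0 ↔ _ from
    exact_inc (n := b) (R := (⊤ : AS.Sub (CA k E ι m))) WZ_le_ZZ le_top z]
  constructor
  · rintro ⟨y, rfl⟩
    exact ⟨quo k X A m b y, delD_quo hc m b y⟩
  · rintro ⟨y, rfl⟩
    obtain ⟨w, rfl⟩ := (quo_bijective hc m b).2 y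
    exact ⟨w, (delD_quo hc m b w).symm⟩

theorem incD_zero_injective (m : ℕ) : Function.Injective (incD k X A m 0) :=
  inc_zero_injective le_top

theorem subsingleton_DD_zero (hc : Cov X A) (b : ℕ) : Subsingleton (DD k X A 0 b) := by
  show Subsingleton (H (ZZ k X A 0) (WZ k X A 0) b)
  rw [ZZ_zero hc]
  exact H.subsingleton_iff.2 fun x hx => T_le_Bc _ _ _ hx.1

theorem piE_zero_bijective (hc : Cov X A) (b : ℕ) : Function.Bijective (piE k X A 0 b) := by
  constructor
  · rw [injective_iff_map_eq_zero]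
    intro z hz
    obtain ⟨w, rfl⟩ := (exact1 hc 0 b z).1 hz
    have := subsingleton_DD_zero (k := k) hc b
    rw [Subsingleton.elim w 0, map_zero]
  · intro z
    have := subsingleton_DD_zero (k := k) hc (b + 1)
    exact (exact2 hc 0 b z).1 (Subsingleton.elim _ _)

/-- `H^b(X) ≃ D 1 b` -/
noncomputable def isoD (hc : Cov X A) (b : ℕ) : EE k X A 0 b ≃ₗ[k] DD k X A 1 b :=
  LinearEquiv.ofBijective _ (piE_zero_bijective hc b)

end Cech

end Vale.Agent.P216.H892
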