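import Vale.Agent.P216.H892.Cech

/-!
# The Čech exact couple: naturality and the terms `EE m b = ∏_i H^b(X ∩ A_i)`
-/

set_option linter.unusedVariables false

open Set Matrix

namespace Vale.Agent.P216.H892

open Vale.Agent.P216.AS Vale.Agent.P216.B64

variable {k : Type} [Field k] {E E' ι ι' : Type}

/-! ### Pullback -/

/-- the pullback of Čech cochains by `φ` on points and `κ` on indices -/
def pmL (k : Type) [Field k] (φ : E → E') (κ : ι → ι') (m n : ℕ) :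
    ((Fin m → ι') → (Fin n → E') → k) →ₗ[k] ((Fin m → ι) → (Fin n → E) → k) where
  toFun F i x := F (κ ∘ i) (φ ∘ x)
  map_add' _ _ := rfl
  map_smul' _ _ := rfl

theorem pmL_apply (φ : E → E') (κ : ι → ι') {m n : ℕ} (F : (Fin m → ι') → (Fin n → E') → k)
    (i : Fin m → ι) (x : Fin n → E) : pmL k φ κ m n F i x = F (κ ∘ i) (φ ∘ x) := rfl

theorem pmL_d (φ : E → E') (κ : ι → ι') (m n : ℕ) (F : (CA k E' ι' m).K n) :
    (CA k E ι m).d n (pmL k φ κ m (n + 1) F) =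
      pmL k φ κ m (n + 2) ((CA k E' ι' m).d n F) := by
  funext i
  exact P265.AS.d_pb φ (F (κ ∘ i))

theorem pmL_dV (φ : E → E') (κ : ι → ι') {m n : ℕ} (F : (Fin m → ι') → (Fin n → E') → k) :
    dV (pmL k φ κ m n F) = pmL k φ κ (m + 1) n (dV F) := by
  funext i x
  rw [dV_eval, pmL_apply, dV_eval, dV_pb]
  rfl

section Metric

variable [PseudoMetricSpace E] [PseudoMetricSpace E'] {X : Set E} {X' : Set E'} {A : ι → Set E}
  {A' : ι' → Set E'} {φ : E → E'} {κ : ι → ι'} {m b : ℕ}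

/-- `φ`, `κ` is a map of covered sets. -/
structure CMap (X : Set E) (A : ι → Set E) (X' : Set E') (A' : ι' → Set E') (φ : E → E')
    (κ : ι → ι') : Prop where
  um : UMap X X' φ
  cov : ∀ v, ∀ x ∈ X, x ∈ A v → φ x ∈ A' (κ v)

theorem CMap.mapsTo (h : CMap X A X' A' φ κ) (i : Fin m → ι) :
    MapsTo φ (XA X A i) (XA X' A' (κ ∘ i)) := fun x hx =>
  ⟨h.um.mapsX hx.1, fun j => h.cov _ x hx.1 (hx.2 j)⟩

theorem CMap.umap (h : CMap X A X' A' φ κ) (i : Fin m → ι) :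
    UMap (XA X A i) (XA X' A' (κ ∘ i)) φ := h.um.mono (XA_subset i) (h.mapsTo i)

theorem CMap.sub {Y : Set E} (h : Y ⊆ X) : CMap Y A X A id id :=
  ⟨IsMap.id_of_subset h, fun _ _ _ h => h⟩

theorem CMap.lz (h : CMap X A X' A' φ κ) {n : ℕ} {F : (Fin m → ι') → (Fin n → E') → k}
    (hF : LZ X' A' F) : LZ X A (pmL k φ κ m n F) := by
  obtain ⟨ε, hε, hF⟩ := hF
  obtain ⟨δ, hδ, hd⟩ := h.um.uc ε hε
  refine ⟨δ, hδ, fun i x hx => hF _ _ ⟨fun j => h.mapsTo i (hx.1 j), fun j l => ?_⟩⟩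
  exact hd _ (hx.1 j).1 _ (hx.1 l).1 (hx.2 j l)

theorem CMap.lzz (h : CMap X A X' A' φ κ) {n : ℕ} {F : (Fin m → ι') → (Fin n → E') → k}
    (hF : LZ X' A' (dV F)) : LZ X A (dV (pmL k φ κ m n F)) := by
  rw [pmL_dV]
  exact h.lz hF

theorem CMap.morE (h : CMap X A X' A' φ κ) (m : ℕ) :
    IsMor (⊤ : AS.Sub (CA k E' ι' m)) (WZ k X' A' m) (⊤ : AS.Sub (CA k E ι m)) (WZ k X A m)
      fun n => pmL k φ κ m (n + 1) :=
  IsMor.of_comm (fun _ => trivial) (fun hF => h.lz hF) (pmL_d φ κ m)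

theorem CMap.morD (h : CMap X A X' A' φ κ) (m : ℕ) :
    IsMor (ZZ k X' A' m) (WZ k X' A' m) (ZZ k X A m) (WZ k X A m)
      fun n => pmL k φ κ m (n + 1) :=
  IsMor.of_comm (fun hF => h.lzz hF) (fun hF => h.lz hF) (pmL_d φ κ m)

theorem CMap.morQ (h : CMap X A X' A' φ κ) (m : ℕ) :
    IsMor (⊤ : AS.Sub (CA k E' ι' m)) (ZZ k X' A' m) (⊤ : AS.Sub (CA k E ι m)) (ZZ k X A m)
      fun n => pmL k φ κ m (n + 1) :=
  IsMor.of_comm (fun _ => trivial) (fun hF => h.lzz hF) (pmL_d φ κ m)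

variable (k)

/-- pullback on `E` -/
def pullE (h : CMap X A X' A' φ κ) (m b : ℕ) : EE k X' A' m b →ₗ[k] EE k X A m b :=
  Hmap (h.morE m) b

/-- pullback on `D` -/
def pullD (h : CMap X A X' A' φ κ) (m b : ℕ) : DD k X' A' m b →ₗ[k] DD k X A m b :=
  Hmap (h.morD m) b

/-- pullback on `Q` -/
def pullQ (h : CMap X A X' A' φ κ) (m b : ℕ) : QQ k X' A' m b →ₗ[k] QQ k X A m b :=
  Hmap (h.morQ m) b

variable {k}

theorem pull_incD (h : CMap X A X' A' φ κ) (z : DD k X' A' m b) :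
    pullE k h m b (incD k X' A' m b z) = incD k X A m b (pullD k h m b z) := by
  obtain ⟨x, hx, rfl⟩ := H.exists_mk z
  rfl

theorem H_mk_congr {C : Amb k} {S T : AS.Sub C} {n : ℕ} {x y : C.K n} (hx : x ∈ Zc S T n)
    (hy : y ∈ Zc S T n) (h : x = y) : H.mk x hx = H.mk y hy := by
  subst h
  rfl

theorem pull_piE (h : CMap X A X' A' φ κ) (z : EE k X' A' m b) :
    pullD k h (m + 1) b (piE k X' A' m b z) = piE k X A m b (pullE k h m b z) := by
  obtain ⟨x, hx, rfl⟩ := H.exists_mk z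
  exact H_mk_congr _ _ (pmL_dV φ κ x).symm

theorem pull_quo (h : CMap X A X' A' φ κ) (z : QQ k X' A' m b) :
    pullD k h (m + 1) b (quo k X' A' m b z) = quo k X A m b (pullQ k h m b z) := by
  obtain ⟨x, hx, rfl⟩ := H.exists_mk z
  exact H_mk_congr _ _ (pmL_dV φ κ x).symm

theorem pull_delD (h : CMap X A X' A' φ κ) (hc : Cov X A) (hc' : Cov X' A')
    (z : DD k X' A' (m + 1) b) :
    pullD k h m (b + 1) (delD hc' m b z) = delD hc m b (pullD k h (m + 1) b z) := by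
  obtain ⟨w, rfl⟩ := (quo_bijective hc' m b).2 z
  rw [delD_quo, pull_quo, delD_quo]
  obtain ⟨x, hx, rfl⟩ := H.exists_mk w
  exact H_mk_congr _ _ (pmL_d φ κ m b x).symm

/-- functoriality -/
theorem pullD_comp {E'' ι'' : Type} [PseudoMetricSpace E''] {X'' : Set E''} {A'' : ι'' → Set E''}
    {ψ : E' → E''} {μ : ι' → ι''} (h : CMap X A X' A' φ κ) (h' : CMap X' A' X'' A'' ψ μ)
    (h'' : CMap X A X'' A'' (ψ ∘ φ) (μ ∘ κ)) (z : DD k X'' A'' m b) :
    pullD k h'' m b z = pullD k h m b (pullD k h' m b z) := by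
  obtain ⟨x, hx, rfl⟩ := H.exists_mk z
  rfl

theorem pullE_comp {E'' ι'' : Type} [PseudoMetricSpace E''] {X'' : Set E''} {A'' : ι'' → Set E''}
    {ψ : E' → E''} {μ : ι' → ι''} (h : CMap X A X' A' φ κ) (h' : CMap X' A' X'' A'' ψ μ)
    (h'' : CMap X A X'' A'' (ψ ∘ φ) (μ ∘ κ)) (z : EE k X'' A'' m b) :
    pullE k h'' m b z = pullE k h m b (pullE k h' m b z) := by
  obtain ⟨x, hx, rfl⟩ := H.exists_mk z
  rfl

theorem pullD_id (h : CMap X A X A id id) (z : DD k X A m b) : pullD k h m b z = z := by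
  obtain ⟨x, hx, rfl⟩ := H.exists_mk z
  rfl

theorem pullE_id (h : CMap X A X A id id) (z : EE k X A m b) : pullE k h m b z = z := by
  obtain ⟨x, hx, rfl⟩ := H.exists_mk z
  rfl

/-! ### The components -/

theorem mor_ev (X : Set E) (A : ι → Set E) (i : Fin m → ι) :
    IsMor (⊤ : AS.Sub (CA k E ι m)) (WZ k X A m)
      (Cc (a0 E) (c0 k) (XA X A i)) (Zr (a0 E) (c0 k) (XA X A i) (XA X A i))
      fun n => LinearMap.proj i :=
  IsMor.of_comm (fun _ e => e.elim) (fun {n F} hF => ⟨fun e => e.elim, by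
    obtain ⟨ε, hε, hF⟩ := hF
    exact ⟨ε, hε, fun x hx => hF i x hx⟩⟩) fun _ _ => rfl

variable (k X A)

/-- the component `i` -/
def evE (m b : ℕ) (i : Fin m → ι) : EE k X A m b →ₗ[k] HU k (XA X A i) b :=
  Hmap (mor_ev (k := k) X A i) b

variable {k X A}

theorem mem_Zc_E {F : (Fin m → ι) → (Fin (b + 1) → E) → k} :
    F ∈ Zc (⊤ : AS.Sub (CA k E ι m)) (WZ k X A m) b ↔ LZ X A fun i => P265.AS.d (F i) :=
  ⟨fun h => h.2, fun h => ⟨trivial, h⟩⟩

variable [Finite ι]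

theorem exists_min {α : Type} [Finite α] (f : α → ℝ) (hf : ∀ a, 0 < f a) :
    ∃ ε > 0, ∀ a, ε ≤ f a := by
  rcases isEmpty_or_nonempty α with h | h
  · exact ⟨1, one_pos, fun a => h.elim a⟩
  · obtain ⟨a₀, h₀⟩ := Finite.exists_min f
    exact ⟨f a₀, hf a₀, h₀⟩

theorem lz_of_van {n : ℕ} {F : (Fin m → ι) → (Fin n → E) → k} (h : ∀ i, Van (XA X A i) (F i)) :
    LZ X A F := by
  choose e he h using h
  obtain ⟨ε, hε, hm⟩ := exists_min e he
  exact ⟨ε, hε, fun i x hx => h i x (hx.mono le_rfl (hm i))⟩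

theorem evE_injective {z z' : EE k X A m b} (h : ∀ i, evE k X A m b i z = evE k X A m b i z') :
    z = z' := by
  rw [← sub_eq_zero]
  have h' : ∀ i, evE k X A m b i (z - z') = 0 := fun i => by rw [map_sub, h i, sub_self]
  generalize z - z' = w at h'
  obtain ⟨F, hF, rfl⟩ := H.exists_mk w
  rw [H.mk_eq_zero]
  have h1 : ∀ i, (F i : (Fin (b + 1) → E) → k) ∈
      Bc (Cc (a0 E) (c0 k) (XA X A i)) (Zr (a0 E) (c0 k) (XA X A i) (XA X A i)) b := fun i => by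
    have := h' i
    unfold evE at this
    rw [Hmap_mk, H.mk_eq_zero] at this
    exact this
  cases b with
  | zero =>
    rw [mem_Bc_zero]
    exact lz_of_van fun i => (mem_Bc_zero.1 (h1 i)).2
  | succ b =>
    have h2 := fun i => mem_Bc_succ.1 (h1 i)
    choose G hG h2 using h2
    rw [mem_Bc_succ]
    exact ⟨G, trivial, lz_of_van fun i => (h2 i).2⟩

theorem exists_evE (w : ∀ i : Fin m → ι, HU k (XA X A i) b) :
    ∃ z : EE k X A m b, ∀ i, evE k X A m b i z = w i := by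
  have h := fun i => H.exists_mk (w i)
  choose F hF h using h
  have hZ : (F : (Fin m → ι) → (Fin (b + 1) → E) → k) ∈
      Zc (⊤ : AS.Sub (CA k E ι m)) (WZ k X A m) b :=
    ⟨trivial, lz_of_van fun i => (mem_Zc_abs.1 (hF i)).2⟩
  exact ⟨H.mk F hZ, fun i => h i⟩

omit [Finite ι] in
/-- **The Čech differential on the components.** -/
theorem evE_d (z : EE k X A m b) (i : Fin (m + 1) → ι) :
    evE k X A (m + 1) b i (incD k X A (m + 1) b (piE k X A m b z)) =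
      ∑ j : Fin (m + 1), (-1 : ℤ) ^ (j : ℕ) • hres k (XA_comp i j.succAbove) b
        (evE k X A m b (i ∘ j.succAbove) z) := by
  obtain ⟨F, hF, rfl⟩ := H.exists_mk z
  let L := fun j : Fin (m + 1) => (Zc (Cc (a0 E) (c0 k) (XA X A i))
    (Zr (a0 E) (c0 k) (XA X A i) (XA X A i)) b)
  have hj : ∀ j : Fin (m + 1), (F (i ∘ j.succAbove) : (Fin (b + 1) → E) → k) ∈
      Zc (Cc (a0 E) (c0 k) (XA X A i)) (Zr (a0 E) (c0 k) (XA X A i) (XA X A i)) b := fun j => by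
    refine mem_Zc_abs.2 ⟨fun e => e.elim, ?_⟩
    obtain ⟨ε, hε, h⟩ := hF.2
    exact ⟨ε, hε, fun x hx => h (i ∘ j.succAbove) x (hx.mono (XA_comp i _) le_rfl)⟩
  have e1 : ∀ j : Fin (m + 1), hres k (XA_comp i j.succAbove) b
      (evE k X A m b (i ∘ j.succAbove) (H.mk F hF)) = H.mkL _ _ b ⟨_, hj j⟩ := fun j => rfl
  have e2 : ∑ j : Fin (m + 1), (-1 : ℤ) ^ (j : ℕ) • hres k (XA_comp i j.succAbove) b
      (evE k X A m b (i ∘ j.succAbove) (H.mk F hF)) =
      H.mkL _ _ b (∑ j : Fin (m + 1), (-1 : ℤ) ^ (j : ℕ) • ⟨_, hj j⟩) := by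
    rw [map_sum]
    refine Finset.sum_congr rfl fun j _ => ?_
    rw [e1, map_zsmul]
  rw [e2]
  have e3 : (∑ j : Fin (m + 1), (-1 : ℤ) ^ (j : ℕ) •
      (⟨_, hj j⟩ : Zc (Cc (a0 E) (c0 k) (XA X A i)) (Zr (a0 E) (c0 k) (XA X A i) (XA X A i)) b)).1
      = dV F i := by
    rw [dV_sum, AddSubmonoidClass.coe_finsetSum]
    rfl
  exact H_mk_congr _ _ e3.symm

omit [Finite ι] in
theorem evE_pull (h : CMap X A X' A' φ κ) (z : EE k X' A' m b) (i : Fin m → ι) :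
    evE k X A m b i (pullE k h m b z) = hpull k (h.umap i) b (evE k X' A' m b (κ ∘ i) z) := by
  obtain ⟨x, hx, rfl⟩ := H.exists_mk z
  rfl

end Metric

end Vale.Agent.P216.H892
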