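import Vale.Agent.P216.C313.Relh
import Vale.Agent.P216.H892.CellStep
import Vale.Agent.P216.H901.W3
import Vale.Agent.P216.H550.LinW
import Vale.Agent.P216.H133C.Cell

/-!
# P216-C: cell filtrations of a family

`CellTriv n ev Z Om F F' c`: the part of the family `Z` over `F'` is obtained from the part over
`F` by attaching `Om × (I^n, ∂I^n)`, up to a bounded shift.

* `CellTriv.iP`: `H^{q+n}(Z over F', Z over F) ~ H^q(Om)`; `CellTriv.low`: zero below `n`.
* `cellSys`: the algebraic cell system of a filtration.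
* `linW_cells`: the line property of `Om` passes to the parts of `Z` over the members of the
  filtration.
* `decTriv`, `decSys`, `linW_dec`: the same for a handle decomposition.
-/

set_option linter.all false

open Set

namespace Vale.Agent.P216.H901

open Vale.Agent.P216.AS Vale.Agent.P216.H83 Vale.Agent.P216.H550 Vale.Agent.P216.C313
open Vale.Agent.P216.H133C

/-- One cell of a filtration. -/
structure CellTriv {E E' Y : Type} [MetricSpace E] [MetricSpace E'] (n : ℕ) (ev : E → Y)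
    (Z : ℝ → Set E) (Om : ℝ → Set E') (F F' : Set Y) (c : ℝ) where
  /-- the space of the pull back to the cell -/
  W : Type
  [inst : MetricSpace W]
  P : ℝ → Set W
  P' : ℝ → Set W
  P_mono : MonoP P
  P'_mono : MonoP P'
  P_sub : ∀ t, P' t ⊆ P t
  f : W → E
  rel : ∀ t, 0 < t → RelH (P t) (P' t) (ovr ev Z F' t) (ovr ev Z F t) f
  tp : SpIntl P P' (fun t => cub n (Om t)) (fun t => bdc n (Om t)) c

attribute [instance] CellTriv.inst

namespace CellTriv

variable {k : Type} [Field k] {E E' Y : Type} [MetricSpace E] [MetricSpace E'] {n : ℕ}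
  {ev : E → Y} {Z : ℝ → Set E} {Om : ℝ → Set E'} {F F' : Set Y} {c : ℝ}

/-- The interleaving of the relative groups with `H^*(Om × (I^n, ∂I^n))`. -/
noncomputable def iP0 (T : CellTriv n ev Z Om F F' c) (h2 : (2 : k) ≠ 0) (hc : 0 ≤ c)
    (hZ : MonoP Z) (hO : MonoP Om) (q : ℕ) :
    Intl (pmP k (ovr_mp (ev := ev) hZ F') (ovr_mp (ev := ev) hZ F) q)
      (PMr k (fun t => cub n (Om t)) (fun t => bdc n (Om t)) (mono_cub n hO) (mono_bdc n hO) q)
      c :=
  PMIso.intl (isoRelH h2 T.P_mono T.P'_mono (ovr_mp hZ F') (ovr_mp hZ F) T.rel q) (isoRefl _) hc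
    (T.tp.intl k T.P_mono T.P'_mono (mono_cub n hO) (mono_bdc n hO) T.P_sub
      (fun t => bdc_subset _ _) hc q)

/-- `H^{q+n}(Z over F', Z over F) ~ H^q(Om)`. -/
noncomputable def iP (T : CellTriv n ev Z Om F F' c) (h2 : (2 : k) ≠ 0) (hc : 0 ≤ c)
    (hZ : MonoP Z) (hO : MonoP Om) (q : ℕ) :
    Intl (pmP k (ovr_mp (ev := ev) hZ F') (ovr_mp (ev := ev) hZ F) (q + n)) (pmX k hO q) c :=
  PMIso.intl (isoRefl _) (isoSus h2 hO n q).symm hc (T.iP0 h2 hc hZ hO (q + n))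

/-- The relative groups vanish below `n`. -/
theorem low (T : CellTriv n ev Z Om F F' c) (h2 : (2 : k) ≠ 0) (hc : 0 ≤ c) (hZ : MonoP Z)
    (hO : MonoP Om) (q : ℕ) (hq : q < n) :
    (pmP k (ovr_mp (ev := ev) hZ F') (ovr_mp (ev := ev) hZ F) q).Eph (2 * c) := by
  have h := (T.iP0 h2 hc hZ hO q).eph hc le_rfl
    (fun s t hs hst _ x => cub_low h2 (Om s) n q hq _)
  rwa [zero_add] at h

end CellTriv

section Sys

variable {E E' Y : Type} [MetricSpace E] [MetricSpace E'] {H : ℕ} {n : ℕ → ℕ} {ev : E → Y}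
  {Z : ℝ → Set E} {Om : ℝ → Set E'} {F : ℕ → Set Y} {c : ℝ}

/-- **The cell system of a filtration.** -/
noncomputable def cellSys (k : Type) [Field k] (h2 : (2 : k) ≠ 0) (hc : 0 ≤ c) (hZ : MonoP Z)
    (hO : MonoP Om) (hF : ∀ j, F j ⊆ F (j + 1))
    (T : ∀ j, j < H → CellTriv (n j) ev Z Om (F j) (F (j + 1)) c) :
    CellSys H (fun q => pmX k hO q) (fun j q => pmX k (ovr_mp (ev := ev) hZ (F j)) q) n c where
  Rel j q := pmP k (ovr_mp (ev := ev) hZ (F (j + 1))) (ovr_mp (ev := ev) hZ (F j)) q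
  N j := zeroPM k
  N0 j t ht x := rfl
  e0 j _ := ex5_abs0 k (ovr_mp hZ (F (j + 1))) (ovr_mp hZ (F j))
    (fun t ht => fun w hw => ⟨hw.1, hF j hw.2⟩)
  e j _ q := ex5_abs k (ovr_mp hZ (F (j + 1))) (ovr_mp hZ (F j))
    (fun t ht => fun w hw => ⟨hw.1, hF j hw.2⟩) q
  i j hj q := (T j hj).iP h2 hc hZ hO q
  low j hj q hq := (T j hj).low h2 hc hZ hO q hq

/-- **The line property over a cell filtration.** -/
theorem linW_cells {k : Type} [Field k] (h2 : (2 : k) ≠ 0) (hc : 0 ≤ c) (hZ : MonoP Z)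
    (hO : MonoP Om) (hF : ∀ j, F j ⊆ F (j + 1))
    (T : ∀ j, j < H → CellTriv (n j) ev Z Om (F j) (F (j + 1)) c) {W : ℕ → ℝ} {a C C₀ : ℝ}
    (hW : Wall W a) (hC : 0 < C) (h0 : 0 < C₀) (hG : LinW k Om hO W C)
    (hX : LinW k (ovr ev Z (F 0)) (ovr_mp hZ _) W C₀) (j : ℕ) (hj : j ≤ H) :
    LinW k (ovr ev Z (F j)) (ovr_mp hZ _) W (CellSys.K a C c n j C₀) :=
  (cellSys k h2 hc hZ hO hF T).step hc hW.a0 hW.nonneg hW.step hC h0 hG hX j hj

end Sys

/-! ### Handle decompositions -/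

section Dec

variable {E E' M : Type} [MetricSpace E] [MetricSpace E'] [MetricSpace M] {d h : ℕ}
  {ev : E → M} {Z : ℝ → Set E} {Om : ℝ → Set E'} {c : ℝ}

/-- Over a closed handle: the identity is a relative homeomorphism
`(Z over D, Z over D ∩ F) → (Z over F ∪ D, Z over F)`. -/
theorem relH_id (hev : Continuous ev) (cZ : ∀ t, 0 < t → IsCompact (Z t)) {D F F' : Set M}
    (hD : IsClosed D) (hF : IsClosed F) (e : F' = F ∪ D) (t : ℝ) (ht : 0 < t) :
    RelH (ovr ev Z D t) (ovr ev Z (D ∩ F) t) (ovr ev Z F' t) (ovr ev Z F t) id where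
  cX := ovr_compact hev hD (cZ t ht)
  cA := ovr_compact hev (hD.inter hF) (cZ t ht)
  cB := ovr_compact hev hF (cZ t ht)
  AX _ hw := ⟨hw.1, hw.2.1⟩
  BY _ hw := ⟨hw.1, e ▸ Or.inl hw.2⟩
  map := isMap_of (ovr_compact hev hD (cZ t ht)) continuousOn_id
    fun _ hw => ⟨hw.1, e ▸ Or.inr hw.2⟩
  sub _ hw := ⟨hw.1, hw.2.2⟩
  off x hx hxA hxB := hxA ⟨hx.1, hx.2, hxB.2⟩
  inj x _ _ x' _ _ h := h
  surj y hy hyB := by
    refine ⟨y, ⟨hy.1, ?_⟩, rfl⟩
    have h1 : ev y ∈ F ∪ D := e ▸ hy.2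
    exact h1.resolve_left fun h => hyB ⟨hy.1, h⟩

/-- The trivialisations over the handles of a handle decomposition. -/
structure DecTriv (C : CellDec M d h) (ev : E → M) (Z : ℝ → Set E) (Om : ℝ → Set E')
    (c : ℝ) where
  c0 : 0 ≤ c
  ev_cont : Continuous ev
  Z_comp : ∀ t, 0 < t → IsCompact (Z t)
  Z_mono : MonoP Z
  Om_mono : MonoP Om
  tp : ∀ j, j ≤ h → SpIntl (ovr ev Z (C.D j)) (ovr ev Z (C.D j ∩ C.L j))
    (fun t => cub (d * j) (Om t)) (fun t => bdc (d * j) (Om t)) c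

namespace DecTriv

variable {C : CellDec M d h}

/-- The handles as cells. -/
noncomputable def triv (T : DecTriv C ev Z Om c) (j : ℕ) (hj : j < h + 1) :
    CellTriv (d * j) ev Z Om (C.L j) (C.L (j + 1)) c where
  W := E
  P := ovr ev Z (C.D j)
  P' := ovr ev Z (C.D j ∩ C.L j)
  P_mono := ovr_mp T.Z_mono _
  P'_mono := ovr_mp T.Z_mono _
  P_sub t w hw := ⟨hw.1, hw.2.1⟩
  f := id
  rel t ht := relH_id T.ev_cont T.Z_comp (C.closed j) (C.isClosed_L j) (C.L_succ j) t ht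
  tp := T.tp j (Nat.lt_succ_iff.1 hj)

/-- **The cell system of a handle decomposition.** -/
noncomputable def sys (T : DecTriv C ev Z Om c) (k : Type) [Field k] (h2 : (2 : k) ≠ 0) :
    CellSys (h + 1) (fun q => pmX k T.Om_mono q)
      (fun j q => pmX k (ovr_mp (ev := ev) T.Z_mono (C.L j)) q) (fun j => d * j) c :=
  cellSys k h2 T.c0 T.Z_mono T.Om_mono (fun j => C.L_mono (Nat.le_succ j)) T.triv

/-- nothing over `L 0` -/
theorem zero0 (T : DecTriv C ev Z Om c) (k : Type) [Field k] (q : ℕ) (t : ℝ)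
    (x : (pmX k (ovr_mp (ev := ev) T.Z_mono (C.L 0)) q).V t) : x = 0 := by
  have he : ovr ev Z (C.L 0) t = ∅ := by
    rw [C.L_zero]
    ext w
    exact ⟨fun h => h.2, fun h => h.elim⟩
  obtain ⟨x, hx, rfl⟩ := H.exists_mk x
  refine H.mk_eq_zero.2 (T_le_Bc _ _ _ ⟨hx.1.1, 1, one_pos, fun y hy => ?_⟩)
  have := hy.1 0
  rw [he] at this
  exact absurd this (Set.notMem_empty _)

/-- **The line property over a handle decomposition.** -/
theorem linW (T : DecTriv C ev Z Om c) {k : Type} [Field k] (h2 : (2 : k) ≠ 0) {W : ℕ → ℝ}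
    {a K : ℝ} (hW : Wall W a) (hK : 0 < K) (hG : LinW k Om T.Om_mono W K) :
    LinW k Z T.Z_mono W (CellSys.K a K c (fun j => d * j) (h + 1) K) := by
  have := (T.sys k h2).step' T.c0 hW.a0 hW.nonneg hW.step hK hG
    (fun q t ht x => T.zero0 k q t x) (h + 1) le_rfl
  refine LinW.congr (hA := ovr_mp (ev := ev) T.Z_mono (C.L (h + 1))) this fun t => ?_
  rw [C.L_top]
  ext w
  exact ⟨fun h => h.1, fun h => ⟨h, mem_univ _⟩⟩

end DecTriv

end Dec

end Vale.Agent.P216.H901
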