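import Vale.Agent.P216.H892.CellFam
import Vale.Agent.P216.MV337.Sys

/-!
# P216-C: the cohomology of a space with a handle decomposition (geometry)

`decPt`: the handles of `M` itself as trivialised cells (`ev = id`, fibre = point, shift `0`).
-/

set_option linter.all false

open Set

namespace Vale.Agent.P216.H892

open Vale.Agent.P216.H901 Vale.Agent.P216.H133C Vale.Agent.P216.H83
open Vale.Agent.P216.MV337 (enc dec1 dec2 dec1_enc dec2_enc enc_dec enc_cont dec2_cont hp_of_cont
  map_of_cont)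

variable {M : Type} [MetricSpace M] {n : ℕ} {D S : Set M}

/-- the family of all of `M` -/
abbrev UM (M : Type) : ℝ → Set M := fun _ => univ

/-- the one point family -/
abbrev UP : ℝ → Set PUnit := fun _ => univ

theorem mem_ovr_id {x : M} {t : ℝ} {D : Set M} : x ∈ ovr (id : M → M) (UM M) D t ↔ x ∈ D :=
  ⟨fun h => h.2, fun h => ⟨trivial, h⟩⟩

theorem ovr_id (D : Set M) (t : ℝ) : ovr (id : M → M) (UM M) D t = D := by
  ext x; exact mem_ovr_id

theorem mem_cubP {z : Cu PUnit n} : z ∈ cub n (univ : Set PUnit) ↔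
    ∀ i, dec2 n z i ∈ Icc (0:ℝ) 1 := by
  rw [MV337.mem_cub]
  exact ⟨fun h => h.2, fun h => ⟨trivial, h⟩⟩

/-- **A closed handle is a cell.** -/
noncomputable def cellPt (C : Cell M n D S) (hD : IsCompact D) (hS : S ⊆ D) :
    SpIntl (ovr (id : M → M) (UM M) D) (ovr (id : M → M) (UM M) S)
      (fun t => cub n (UP t)) (fun t => bdc n (UP t)) 0 where
  f _ x := enc n PUnit.unit (C.φ x)
  g _ z := C.ψ (dec2 n z)
  f_map t ht := by
    rw [ovr_id]
    refine map_of_cont hD (enc_cont n continuousOn_const C.φ_cont) fun x hx => ?_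
    rw [mem_cubP, dec2_enc]
    exact C.φ_mem x hx
  f_sub t ht := by
    rw [ovr_id]
    intro x hx
    rw [MV337.mem_bdc, mem_cubP, dec2_enc]
    exact ⟨C.φ_mem x (hS hx), C.φ_bd x hx⟩
  g_map t ht := by
    rw [ovr_id]
    refine map_of_cont (MV337.isCompact_cub n isCompact_univ) ?_ fun z hz => ?_
    · exact C.ψ_cont.comp (dec2_cont n).continuousOn fun z hz => mem_cubP.1 hz
    · exact C.ψ_mem _ (mem_cubP.1 hz)
  g_sub t ht := by
    rw [ovr_id]
    intro z hz
    obtain ⟨h1, h2⟩ := (MV337.mem_bdc n).1 hz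
    exact C.ψ_bd _ (mem_cubP.1 h1) h2
  f_nat s t hs hst := by
    rw [ovr_id, ovr_id]
    refine hp_of_cont hD (F := fun p => enc n PUnit.unit (C.φ p.2)) ?_ ?_ ?_ (fun _ _ => rfl)
      (fun _ _ => rfl)
    · exact enc_cont n continuousOn_const (C.φ_cont.comp continuousOn_snd fun p hp => hp.2)
    · intro σ hσ x hx
      rw [mem_cubP, dec2_enc]
      exact C.φ_mem x hx
    · intro σ hσ x hx
      rw [MV337.mem_bdc, mem_cubP, dec2_enc]
      exact ⟨C.φ_mem x (hS hx), C.φ_bd x hx⟩
  g_nat s t hs hst := by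
    rw [ovr_id, ovr_id]
    refine hp_of_cont (MV337.isCompact_cub n isCompact_univ)
      (F := fun p => C.ψ (dec2 n p.2)) ?_ ?_ ?_ (fun _ _ => rfl) (fun _ _ => rfl)
    · exact C.ψ_cont.comp ((dec2_cont n).comp_continuousOn continuousOn_snd)
        fun p hp => mem_cubP.1 hp.2
    · exact fun σ hσ z hz => C.ψ_mem _ (mem_cubP.1 hz)
    · intro σ hσ z hz
      obtain ⟨h1, h2⟩ := (MV337.mem_bdc n).1 hz
      exact C.ψ_bd _ (mem_cubP.1 h1) h2
  gf t ht := by
    rw [ovr_id, ovr_id, ovr_id, ovr_id]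
    refine hp_of_cont hD (F := fun p => C.K (p.2, p.1)) ?_ ?_ ?_ ?_ ?_
    · exact C.K_cont.comp (continuousOn_snd.prodMk continuousOn_fst) fun p hp => ⟨hp.2, hp.1⟩
    · exact fun σ hσ x hx => C.K_mem x hx σ hσ
    · exact fun σ hσ x hx => C.K_bd x hx σ hσ
    · exact fun x hx => C.K_zero x hx
    · intro x hx
      show C.K (x, 1) = C.ψ (dec2 n (enc n PUnit.unit (C.φ x)))
      rw [dec2_enc, C.K_one x hx]
  fg t ht := by
    have key : ∀ z ∈ cub n (univ : Set PUnit), enc n PUnit.unit (C.φ (C.ψ (dec2 n z))) = z := by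
      intro z hz
      rw [C.φψ _ (mem_cubP.1 hz)]
      exact enc_dec n z
    refine hp_of_cont (MV337.isCompact_cub n isCompact_univ) (F := fun p => p.2)
      continuousOn_snd ?_ ?_ ?_ ?_
    · exact fun σ hσ z hz => hz
    · exact fun σ hσ z hz => hz
    · exact fun z hz => rfl
    · exact fun z hz => (key z hz).symm

variable {d h : ℕ}

/-- **The handle decomposition of `M`** as a trivialised family. -/
noncomputable def decPt [CompactSpace M] (C : CellDec M d h) :
    DecTriv C (id : M → M) (UM M) UP 0 where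
  c0 := le_rfl
  ev_cont := continuous_id
  Z_comp _ _ := isCompact_univ
  Z_mono _ _ _ _ := subset_rfl
  Om_mono _ _ _ _ := subset_rfl
  tp j hj := cellPt (C.cellL hj) (C.closed j).isCompact inter_subset_left

end Vale.Agent.P216.H892
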