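import Vale.Agent.P216.H892.Cech2

/-!
# P216-D, block [E2]: chains of stages (interface between the geometry and the algebra)

`ECh k E ι J`: stages `j = 0, 1, .., J`: a set `X j` in `E` with the finite cover `A j v`, `v : ι`,
decreasing in `j`; the nerve `N j`; the coefficients `V j b` (`= H^b` of the fibre at the level
`t j`). One step `j → j + 1` is a costly step (radius `/ 8`, level `- c`).

Instances wanted (all with `ι` a finite set of points of a compact `M` with unique short segments,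
`N j i := ∀ a b, dist (i a) (i b) ≤ 2 * r j`, `A j v := {w | dist (π w) v ≤ r j}`):
* `E = ℝ →ᵇ M`, `π w = w 0`, `X j = FL M (t j)`, `V j b = HU k (P x₀ x₀ (t j)) b`;
* the paths from anywhere to `b₀`: `V j b = HU k (P x₀ b₀ (t j)) b`;
* `E = M`, `π = id`, `X j = univ`, `V j b = HU k {x₀} b`;
* the same over a closed subset `K`: `X j := {w ∈ .. | infDist (π w) K ≤ s j}`.
-/

set_option linter.unusedVariables false

open Set Matrix

namespace Vale.Agent.P216.H892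

open Vale.Agent.P216.AS Vale.Agent.P216.B64

theorem XA_anti2 {E ι : Type} {X X' : Set E} {A A' : ι → Set E} (hX : X' ⊆ X)
    (hA : ∀ v, A' v ⊆ A v) {m : ℕ} (i : Fin m → ι) : XA X' A' i ⊆ XA X A i :=
  fun _ hx => ⟨hX hx.1, fun j => hA _ (hx.2 j)⟩

/-- **A chain of stages.** -/
structure ECh (k E ι : Type) [Field k] [PseudoMetricSpace E] (J : ℕ) where
  /-- the sets -/
  X : ℕ → Set E
  /-- the covers -/
  A : ℕ → ι → Set E
  /-- the nerves -/
  N : ℕ → ∀ {m : ℕ}, (Fin m → ι) → Prop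
  /-- the coefficients, `V j b` = degree `b` at the stage `j` -/
  V : ℕ → ℕ → Type
  [ag : ∀ j b, AddCommGroup (V j b)]
  [mo : ∀ j b, Module k (V j b)]
  X_anti : ∀ j, X (j + 1) ⊆ X j
  A_anti : ∀ j v, A (j + 1) v ⊆ A j v
  cov : ∀ j ≤ J, Cov (X j) (A j)
  N_anti : ∀ j {m : ℕ} (i : Fin m → ι), N (j + 1) i → N j i
  N_face : ∀ j {m : ℕ} (i : Fin (m + 1) → ι) (l : Fin (m + 1)), N j i → N j (i ∘ l.succAbove)
  empty : ∀ j ≤ J, ∀ {m : ℕ} (i : Fin (m + 1) → ι), ¬ N j i → XA (X j) (A j) i = ∅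
  /-- restriction of the coefficients -/
  ρ : ∀ j b, V j b →ₗ[k] V (j + 1) b
  /-- restriction to the fibre (over `i 0`, transported) -/
  f : ∀ j b {m : ℕ} (i : Fin (m + 1) → ι), HU k (XA (X j) (A j) i) b →ₗ[k] V (j + 1) b
  /-- extension from the fibre -/
  g : ∀ j b {m : ℕ} (i : Fin (m + 1) → ι), V j b →ₗ[k] HU k (XA (X (j + 1)) (A (j + 1)) i) b
  f_face : ∀ j, j + 1 ≤ J → ∀ b {m : ℕ} (i : Fin (m + 2) → ι) (l : Fin (m + 2)), N (j + 1) i →
    ∀ z, f j b i (hres k (XA_comp i l.succAbove) b z) = f j b (i ∘ l.succAbove) z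
  g_face : ∀ j, j + 1 ≤ J → ∀ b {m : ℕ} (i : Fin (m + 2) → ι) (l : Fin (m + 2)), N (j + 1) i →
    ∀ v, hres k (XA_comp i l.succAbove) b (g j b (i ∘ l.succAbove) v) = g j b i v
  f_nat : ∀ j, j + 2 ≤ J → ∀ b {m : ℕ} (i : Fin (m + 1) → ι), N (j + 2) i → ∀ z,
    f (j + 1) b i (hres k (XA_anti2 (X_anti j) (A_anti j) i) b z) = ρ (j + 1) b (f j b i z)
  g_nat : ∀ j, j + 2 ≤ J → ∀ b {m : ℕ} (i : Fin (m + 1) → ι), N (j + 2) i → ∀ v,
    hres k (XA_anti2 (X_anti (j + 1)) (A_anti (j + 1)) i) b (g j b i v) = g (j + 1) b i (ρ j b v)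
  gf : ∀ j, j + 2 ≤ J → ∀ b {m : ℕ} (i : Fin (m + 1) → ι), N (j + 2) i → ∀ z,
    g (j + 1) b i (f j b i z) =
      hres k ((XA_anti2 (X_anti (j + 1)) (A_anti (j + 1)) i).trans
        (XA_anti2 (X_anti j) (A_anti j) i)) b z
  fg : ∀ j, j + 2 ≤ J → ∀ b {m : ℕ} (i : Fin (m + 1) → ι), N (j + 2) i → ∀ v,
    f (j + 1) b i (g j b i v) = ρ (j + 1) b (ρ j b v)

attribute [instance] ECh.ag ECh.mo

end Vale.Agent.P216.H892
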