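import Vale.Agent.P216.H892.FibO
import Vale.Agent.P216.H971.FibPF

/-!
# Transported families for the paths to a point
-/

set_option linter.all false

open Set BoundedContinuousFunction

namespace Vale.Agent.P216.H892

open Sl PS E2L H923E H456
open Vale.Agent.P216.MV337 (evz)

variable {M : Type} [MetricSpace M] [CompactSpace M] {ρ : ℝ}

/-- **(H4)** a cocycle of `P x₀ b (t + C)` is transported to a family over `M`. -/
theorem famV_PF [SimplyConnectedSpace M] (hρ : 0 < ρ) (hU : LS.UniqSeg M ρ) (x₀ b : M) :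
    ∃ C ≥ 0, ∀ (k : Type) [Field k] (q : ℕ), q ≠ 0 → ∀ t > 0, ∀ z : List (ℝ →ᵇ M) → k,
      CocL (P x₀ b (t + C)) q z → ∃ V : M → List (ℝ →ᵇ M) → k,
        FamV evz univ (PF b t) q V ∧ ExL (P x₀ b t) q fun l => V x₀ l - z l := by
  obtain ⟨c, r0, h⟩ := H971.Low.exists_fibPF hρ hU x₀
  obtain ⟨φ, ψ, U, hx⟩ := h b
  refine ⟨c, U.hc, fun k _ q hq t ht z hz => ⟨fun x l => z (l.map (φ x t)),
    U.famV univ ht le_rfl hz, ?_⟩⟩
  have e := UH.list_one (hx t ht) hz hq
  simpa only [List.map_id] using e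

end Vale.Agent.P216.H892
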