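import Vale.Agent.P216.H923E.Inst

/-!
# The map `φ x₀` is homotopic to the identity on the fibre over `x₀`
-/

set_option linter.all false

open Set BoundedContinuousFunction

namespace Vale.Agent.P216.H923E.Tr0

open Vale.Agent.P216.PS Vale.Agent.P216.MV337 Vale.Agent.P216.C337
open Vale.Agent.P216.Sl (IsPi)
open Vale.Agent.P216.H892 (FibU nbc fbr)
open Vale.Agent.P216.H923E

variable {M : Type} [MetricSpace M] [CompactSpace M] {ρ R : ℝ}
variable {g : M → M} {x₀ : M} {ℓ₀ D ℓ r0 t s : ℝ} {c : M → ℝ → M}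

/-- **(hx)** -/
theorem hx (T : Tr0 x₀ ρ R ℓ₀ D ℓ r0 c) (hg : ∀ x y, dist (g x) (g y) ≤ dist x y) (ht : 0 ≤ t) :
    UH (fun _ : Unit => P x₀ (g x₀) t) (fun _ => P x₀ (g x₀) (t + (R + ℓ + (R + ℓ))))
      (fun _ => id) fun _ => phi g R ℓ c x₀ t := by
  have hm := T.m_nonneg
  have hR := T.hR
  have hr0 := T.hr0
  have h1 : Pt (R + ℓ₀) x₀ x₀ (pφ R c x₀ x₀) :=
    (sg_pt T.hU T.hR (by rw [dist_self]; linarith [T.hRρ]) (by rw [dist_self]; linarith)).cat
      (T.hc x₀) T.hR.le T.hℓ₀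
  have h2 : Pt (R + ℓ₀) x₀ x₀ fun _ => x₀ := pt_const _ _
  obtain hj := T.hD.join x₀ x₀ (R + ℓ₀) (by linarith [T.hℓ₀]) _ h2.mo _ h1.mo
  have hγ : ∀ σ, Pt (R + ℓ) x₀ x₀ (hj.somePath.extend σ) := fun σ =>
    (Pt.of_P (hj.somePath_mem (projIcc 0 1 zero_le_one σ))).le (by linarith [T.hℓ])
  have e := uh_conj (I := Unit) (D := fun _ => {x₀}) (V := fun _ => {x₀}) hg hm ht
    (fun _ σ _ => hj.somePath.extend σ) (fun _ σ _ a ha => by
      rw [mem_singleton_iff.1 ha]
      exact ⟨x₀, rfl, hγ σ⟩) (fun ε hε => ⟨1, one_pos, fun _ σ _ a _ a' _ _ u => by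
      rw [dist_self]; exact hε.le⟩) fun _ ε hε => by
      have hc : UniformContinuousOn hj.somePath.extend (Icc (0:ℝ) 1) :=
        isCompact_Icc.uniformContinuousOn_of_continuous
          hj.somePath.continuous_extend.continuousOn
      obtain ⟨δ, hδ, h⟩ := Metric.uniformContinuousOn_iff.1 hc ε hε
      refine ⟨δ, hδ, fun σ hσ σ' hσ' hd a _ u => ?_⟩
      exact (BoundedContinuousFunction.dist_coe_le_dist u).trans
        (h σ hσ σ' hσ' (by rwa [Real.dist_eq])).le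
  have e0 := uh_shift (I := Unit) (D := fun _ => {x₀}) hg hm ht
  simp only [XL_singleton] at e e0
  refine (e0.congr (fun _ _ _ => rfl) (g' := fun _ w => cg g (R + ℓ) t (fun _ => x₀) w)
    fun _ w hw => ?_).trans (e.congr (fun _ w hw => ?_) fun _ w hw => ?_)
  · have h0 : w 0 = x₀ := eq_left hw le_rfl
    show cg g (R + ℓ) t (fun _ => w 0) w = _
    rw [h0]
  · show cg g (R + ℓ) t (hj.somePath.extend 0) w = _
    rw [hj.somePath.extend_zero]
    congr 1
    funext u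
    exact h2.1.mo_apply u
  · have h0 : w 0 = x₀ := eq_left hw le_rfl
    show cg g (R + ℓ) t (hj.somePath.extend 1) w = cg g (R + ℓ) t (pφ R c x₀ (w 0)) w
    rw [hj.somePath.extend_one, h0]
    congr 1
    funext u
    exact h1.1.mo_apply u

end Vale.Agent.P216.H923E.Tr0
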