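import Vale.Agent.P216.H892.FibO
import Vale.Agent.P216.H892.Hx
import Vale.Agent.P216.H774D.Pwr

/-!
# `E2L.Fib` for the free loops

`fib_FL`: the interface of the Leray zigzag for `π w = w 0`, `X t = FL M t`, `O t = P x₀ x₀ t`;
`fib_rv`: `θ` the reversal; `fib_pwr`: `θ` the power map (the homotopy `hθ` of 907 is a hypothesis).
`null_PF`, `zero_PF`, `loc_PF`: the fibre step for `PF b`.
-/

set_option linter.all false

open Set BoundedContinuousFunction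

namespace Vale.Agent.P216.H892

open Sl PS E2L D907 H923E
open Vale.Agent.P216.MV337 (FL FL_mono mem_P_iff_FL)
open Vale.Agent.P216.H754B (rv rv_zero rv_mem_FL dist_rv_le)
open Vale.Agent.P216.H774D (pwr pwr_mem pwr_mem_P dist_pwr)

variable {M : Type} [MetricSpace M] [CompactSpace M] {ρ R ℓ₀ D ℓ r0 m : ℝ} {x₀ : M}
  {c : M → ℝ → M} {θ : ℝ → (ℝ →ᵇ M) → (ℝ →ᵇ M)} {k : Type} [Field k] {Fs : ℕ → Prop} {w : ℕ → k}

/-- **The interface for the free loops.** -/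
theorem fib_FL (T : Tr0 x₀ ρ R ℓ₀ D ℓ r0 c) (hm : 1 ≤ m)
    (op : ∀ s > 0, OpE (fun w : ℝ →ᵇ M => w 0) (FL M s) (FL M (m * s)) (θ s)) (f0 : Fs 0)
    (w0 : w 0 = 1)
    (hθ : ∀ s > 0, UH (fun x : M => nbc (fun w : ℝ →ᵇ M => w 0) (FL M s) x r0)
      (fun _ => P x₀ x₀ (m * (s + (R + ℓ + (R + ℓ)))))
      (fun x w => phi (fun x => x) R ℓ c x (m * s) (θ s w))
      fun x w => θ (s + (R + ℓ + (R + ℓ))) (phi (fun x => x) R ℓ c x s w))
    (L : OmL k (fun t => P x₀ x₀ t) θ m Fs w) :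
    Fib (fun w : ℝ →ᵇ M => w 0) univ (fun t => FL M t) (fun t => P x₀ x₀ t) x₀ θ m k Fs w :=
  fib_of T.fibU_FL (fun t => isCompact_P _ _ _) (fun _ _ => dist_coe_le_dist 0) (mem_univ _)
    (fun t w => mem_P_iff_FL) (fun t ht x _ => ⟨const ℝ x, ⟨fun u v => by
      show dist x x ≤ |u - v|
      rw [dist_self]
      exact abs_nonneg _, fun _ _ => rfl, fun _ _ => rfl⟩, rfl⟩)
    hm op f0 w0 (fun t ht => T.hx (g := fun x => x) (fun _ _ => le_rfl) ht.le) hθ L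

/-- The reversal. -/
theorem opE_rv {s : ℝ} : OpE (fun w : ℝ →ᵇ M => w 0) (FL M s) (FL M (1 * s)) (rv s) := by
  rw [one_mul]
  exact ⟨fun w hw => rv_mem_FL hw le_rfl, fun r hr => ⟨r, hr, fun w _ w' _ hd =>
    (dist_rv_le s w w').trans_lt hd⟩, fun w hw => rv_zero hw le_rfl⟩

/-- The power map. -/
theorem opE_pwr (m : ℕ) {s : ℝ} (hs : 0 < s) :
    OpE (fun w : ℝ →ᵇ M => w 0) (FL M s) (FL M ((m:ℝ) * s)) (fun w => pwr s m w) :=
  ⟨fun w hw => pwr_mem hs.le hw m, fun r hr => ⟨r, hr, fun w hw w' hw' hd =>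
    (dist_pwr hs.le hw hw' m).trans_lt hd⟩, fun w hw =>
      eq_left (pwr_mem_P hs.le (mem_P_iff_FL.2 ⟨hw, rfl⟩) m) le_rfl⟩

/-- **The free loops with the reversal.** -/
theorem fib_rv (T : Tr0 x₀ ρ R ℓ₀ D ℓ r0 c) (f0 : Fs 0) (w0 : w 0 = 1)
    (L : OmL k (fun t => P x₀ x₀ t) (fun t => rv t) 1 Fs w) :
    Fib (fun w : ℝ →ᵇ M => w 0) univ (fun t => FL M t) (fun t => P x₀ x₀ t) x₀ (fun t => rv t)
      1 k Fs w :=
  fib_FL T le_rfl (fun s _ => opE_rv) f0 w0 (fun s hs => by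
    rw [one_mul, one_mul]
    exact T.uh_rv hs.le) L

/-- **The free loops with the power map.** -/
theorem fib_pwr (T : Tr0 x₀ ρ R ℓ₀ D ℓ r0 c) {m : ℕ} (hm : 1 ≤ m) (f0 : Fs 0) (w0 : w 0 = 1)
    (hθ : ∀ s > 0, UH (fun x : M => nbc (fun w : ℝ →ᵇ M => w 0) (FL M s) x r0)
      (fun _ => P x₀ x₀ (m * (s + (R + ℓ + (R + ℓ)))))
      (fun x w => phi (fun x => x) R ℓ c x (m * s) (pwr s m w))
      fun x w => pwr (s + (R + ℓ + (R + ℓ))) m (phi (fun x => x) R ℓ c x s w))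
    (L : OmL k (fun t => P x₀ x₀ t) (fun t => pwr t m) m Fs w) :
    Fib (fun w : ℝ →ᵇ M => w 0) univ (fun t => FL M t) (fun t => P x₀ x₀ t) x₀
      (fun t => pwr t m) m k Fs w :=
  fib_FL T (by exact_mod_cast hm) (fun s hs => opE_pwr m hs) f0 w0 hθ L

end Vale.Agent.P216.H892
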