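import Vale.Agent.P216.H550.Lin

/-!
# P216-C: the four and five lemmas up to a bounded shift

`PM.Hom A B`: natural maps of persistence modules. `Onto c`, `Inj c`: surjective, injective up to
the shift `c`. `PM.const`: constant modules.
-/

set_option linter.all false

namespace Vale.Agent.P216.H901

variable {k : Type} [Field k]

namespace PM

/-- Natural maps. -/
structure Hom (A B : PM k) where
  f : ∀ t, 0 < t → A.V t →ₗ[k] B.V t
  nat : ∀ s t hs ht (h : s ≤ t) x, B.ρ s t hs h (f t ht x) = f s hs (A.ρ s t hs h x)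

/-- The constant module. -/
def const (V : Type) [AddCommGroup V] [Module k V] : PM k where
  V _ := V
  ρ _ _ _ _ := LinearMap.id
  ρ_refl _ _ _ _ := rfl
  ρ_comp _ _ _ _ _ _ _ _ _ := rfl

variable {A B C : PM k} {c c' : ℝ}

namespace Hom

/-- Surjective up to the shift `c`. -/
def Onto (φ : Hom A B) (c : ℝ) : Prop :=
  ∀ s t (hs : 0 < s) (ht : 0 < t) (h : s ≤ t), s + c ≤ t → ∀ y : B.V t,
    ∃ x : A.V s, φ.f s hs x = B.ρ s t hs h y

/-- Injective up to the shift `c`. -/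
def Inj (φ : Hom A B) (c : ℝ) : Prop :=
  ∀ s t (hs : 0 < s) (ht : 0 < t) (h : s ≤ t), s + c ≤ t → ∀ x : A.V t,
    φ.f t ht x = 0 → A.ρ s t hs h x = 0

theorem Onto.mono {φ : Hom A B} (h : φ.Onto c) (hc : c ≤ c') : φ.Onto c' :=
  fun s t hs ht hst h1 y => h s t hs ht hst (by linarith) y

theorem Inj.mono {φ : Hom A B} (h : φ.Inj c) (hc : c ≤ c') : φ.Inj c' :=
  fun s t hs ht hst h1 x hx => h s t hs ht hst (by linarith) x hx

/-- a map onto an ephemeral module -/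
theorem onto_of_eph {φ : Hom A B} (h : B.Eph c) : φ.Onto c :=
  fun s t hs ht hst h1 y => ⟨0, by rw [map_zero, h s t hs hst h1]⟩

/-- a map from an ephemeral module -/
theorem inj_of_eph {φ : Hom A B} (h : A.Eph c) : φ.Inj c :=
  fun s t hs ht hst h1 x _ => h s t hs hst h1 x

/-- a surjective map -/
theorem onto_of_surj {φ : Hom A B} (h : ∀ t ht, Function.Surjective (φ.f t ht)) (hc : 0 ≤ c) :
    φ.Onto c :=
  fun s t hs ht hst h1 y => h s hs _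

/-- an injective map -/
theorem inj_of_inj {φ : Hom A B} (h : ∀ t ht, Function.Injective (φ.f t ht)) (hc : 0 ≤ c) :
    φ.Inj c :=
  fun s t hs ht hst h1 x hx => by
    have : x = 0 := h t ht (by rw [hx, map_zero])
    rw [this, map_zero]

/-- composition -/
def comp (ψ : Hom B C) (φ : Hom A B) : Hom A C where
  f t ht := (ψ.f t ht).comp (φ.f t ht)
  nat s t hs ht h x := by
    rw [LinearMap.comp_apply, LinearMap.comp_apply, ψ.nat _ _ _ ht, φ.nat _ _ _ ht]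

theorem Onto.comp {ψ : Hom B C} {φ : Hom A B} (h : ψ.Onto c) (h' : φ.Onto c') (hc : 0 ≤ c)
    (hc' : 0 ≤ c') : (ψ.comp φ).Onto (c + c') := by
  intro s t hs ht hst h1 y
  have p1 : 0 < s + c' := by linarith
  obtain ⟨x, hx⟩ := h (s + c') t p1 ht (by linarith) (by linarith) y
  obtain ⟨z, hz⟩ := h' s (s + c') hs p1 (by linarith) le_rfl x
  refine ⟨z, ?_⟩
  change ψ.f s hs (φ.f s hs z) = _
  rw [hz, ← ψ.nat s (s + c') hs p1, hx, C.ρ_comp _ _ _ _ _ _ _ hst]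

theorem Inj.comp {ψ : Hom B C} {φ : Hom A B} (h : ψ.Inj c) (h' : φ.Inj c') (hc : 0 ≤ c)
    (hc' : 0 ≤ c') : (ψ.comp φ).Inj (c + c') := by
  intro s t hs ht hst h1 x hx
  have p1 : 0 < s + c' := by linarith
  have e1 := h (s + c') t p1 ht (by linarith) (by linarith) (φ.f t ht x) hx
  rw [φ.nat _ _ p1 ht] at e1
  have e2 := h' s (s + c') hs p1 (by linarith) le_rfl _ e1
  rwa [A.ρ_comp _ _ _ _ _ _ _ hst] at e2

/-- surjective and injective up to a shift, onto an ephemeral module -/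
theorem Inj.eph {φ : Hom A B} (h : φ.Inj c) (hB : B.Eph c') (hc : 0 ≤ c) (hc' : 0 ≤ c') :
    A.Eph (c + c') := by
  intro s t hs hst h1 x
  have ht : 0 < t := hs.trans_le hst
  have p1 : 0 < s + c := by linarith
  have e1 : φ.f (s + c) p1 (A.ρ (s + c) t p1 (by linarith) x) = 0 := by
    rw [← φ.nat _ _ p1 ht]
    exact hB _ _ _ _ (by linarith) _
  have e2 := h s (s + c) hs p1 (by linarith) le_rfl _ e1
  rwa [A.ρ_comp _ _ _ _ _ _ _ hst] at e2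

theorem Onto.eph {φ : Hom A B} (h : φ.Onto c) (hA : A.Eph c') (hc : 0 ≤ c) (hc' : 0 ≤ c') :
    B.Eph (c + c') := by
  intro s t hs hst h1 y
  have ht : 0 < t := hs.trans_le hst
  have p1 : 0 < s + c' := by linarith
  obtain ⟨x, hx⟩ := h (s + c') t p1 ht (by linarith) (by linarith) y
  rw [← B.ρ_comp s (s + c') t hs p1 (by linarith) (by linarith) hst, ← hx, φ.nat _ _ hs p1,
    hA s (s + c') hs _ le_rfl, map_zero]

end Hom

end PM

open PM

/-- **Zero up to a shift.** -/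
theorem Ex5.eph {N P X Q R : PM k} (e : Ex5 N P X Q R) {a b : ℝ} (ha : 0 ≤ a) (hb : 0 ≤ b)
    (hP : P.Eph a) (hQ : Q.Eph b) : X.Eph (a + b) := by
  intro s t hs hst h1 x
  have ht : 0 < t := hs.trans_le hst
  have p1 : 0 < s + a := by linarith
  have e1 : e.β (s + a) p1 (X.ρ (s + a) t p1 (by linarith) x) = 0 := by
    rw [← e.β_nat _ _ _ ht]
    exact hQ _ _ _ _ (by linarith) _
  obtain ⟨p, hp⟩ := (e.exX _ p1 _).1 e1
  rw [← X.ρ_comp s (s + a) t hs p1 (by linarith) (by linarith) hst, ← hp, e.α_nat _ _ hs p1,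
    hP s (s + a) hs _ le_rfl, map_zero]

/-- Maps between exact sequences `N → P → X → Q → R` and `N' → P' → X' → Q' → R'`. -/
structure Ex5Hom {N P X Q R N' P' X' Q' R' : PM k} (e : Ex5 N P X Q R)
    (e' : Ex5 N' P' X' Q' R') where
  n : Hom N N'
  p : Hom P P'
  x : Hom X X'
  q : Hom Q Q'
  r : Hom R R'
  ν : ∀ t ht z, p.f t ht (e.ν t ht z) = e'.ν t ht (n.f t ht z)
  α : ∀ t ht z, x.f t ht (e.α t ht z) = e'.α t ht (p.f t ht z)
  β : ∀ t ht z, q.f t ht (e.β t ht z) = e'.β t ht (x.f t ht z)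
  δ : ∀ t ht z, r.f t ht (e.δ t ht z) = e'.δ t ht (q.f t ht z)

namespace Ex5Hom

variable {N P X Q R N' P' X' Q' R' : PM k} {e : Ex5 N P X Q R} {e' : Ex5 N' P' X' Q' R'}
  {c₁ c₂ c₃ : ℝ}

/-- **Four lemma, surjective form.** -/
theorem onto (F : Ex5Hom e e') (h1 : 0 ≤ c₁) (h2 : 0 ≤ c₂) (h3 : 0 ≤ c₃) (hp : F.p.Onto c₁)
    (hq : F.q.Onto c₂) (hr : F.r.Inj c₃) : F.x.Onto (c₁ + c₂ + c₃) := by
  intro s t hs ht hst h y
  -- `s ≤ s + c₁ ≤ s + c₁ + c₃ ≤ t`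
  have p1 : 0 < s + c₁ := by linarith
  have p2 : 0 < s + c₁ + c₃ := by linarith
  obtain ⟨z, hz⟩ := hq (s + c₁ + c₃) t p2 ht (by linarith) (by linarith) (e'.β t ht y)
  have e1 : F.r.f _ p2 (e.δ _ p2 z) = 0 := by
    rw [F.δ, hz, e'.β_nat _ _ p2 ht]
    exact (e'.exQ _ p2 _).2 ⟨_, rfl⟩
  have e2 := hr (s + c₁) (s + c₁ + c₃) p1 p2 (by linarith) le_rfl _ e1
  rw [e.δ_nat _ _ p1 p2] at e2
  obtain ⟨x₁, hx₁⟩ := (e.exQ _ p1 _).1 e2
  have e3 : e'.β _ p1 (X'.ρ (s + c₁) t p1 (by linarith) y - F.x.f _ p1 x₁) = 0 := by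
    rw [map_sub, ← e'.β_nat _ _ p1 ht, ← F.β, hx₁, ← F.q.nat _ _ p1 p2, hz,
      Q'.ρ_comp _ _ _ _ _ _ _ (by linarith), sub_self]
  obtain ⟨w, hw⟩ := (e'.exX _ p1 _).1 e3
  obtain ⟨w', hw'⟩ := hp s (s + c₁) hs p1 (by linarith) le_rfl w
  refine ⟨X.ρ s (s + c₁) hs (by linarith) x₁ + e.α s hs w', ?_⟩
  rw [map_add, F.α, hw', ← e'.α_nat _ _ hs p1, hw, ← F.x.nat _ _ hs p1, map_sub,
    X'.ρ_comp _ _ _ _ _ _ _ hst]
  abel

/-- **Four lemma, injective form.** -/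
theorem inj (F : Ex5Hom e e') (h1 : 0 ≤ c₁) (h2 : 0 ≤ c₂) (h3 : 0 ≤ c₃) (hn : F.n.Onto c₁)
    (hp : F.p.Inj c₂) (hq : F.q.Inj c₃) : F.x.Inj (c₁ + c₂ + c₃) := by
  intro s t hs ht hst h x hx
  -- `s ≤ s + c₂ ≤ s + c₂ + c₁ ≤ t`
  have p1 : 0 < s + c₂ := by linarith
  have p2 : 0 < s + c₂ + c₁ := by linarith
  have e1 : F.q.f t ht (e.β t ht x) = 0 := by rw [F.β, hx, map_zero]
  have e2 := hq (s + c₂ + c₁) t p2 ht (by linarith) (by linarith) _ e1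
  rw [e.β_nat _ _ p2 ht] at e2
  obtain ⟨w, hw⟩ := (e.exX _ p2 _).1 e2
  have e3 : e'.α _ p2 (F.p.f _ p2 w) = 0 := by
    rw [← F.α, hw, ← F.x.nat _ _ p2 ht, hx, map_zero]
  obtain ⟨v', hv'⟩ := (e'.exP _ p2 _).1 e3
  obtain ⟨v, hv⟩ := hn (s + c₂) (s + c₂ + c₁) p1 p2 (by linarith) le_rfl v'
  have e4 : F.p.f _ p1 (P.ρ (s + c₂) (s + c₂ + c₁) p1 (by linarith) w - e.ν _ p1 v) = 0 := by
    rw [map_sub, ← F.p.nat _ _ p1 p2, ← hv', e'.ν_nat _ _ p1 p2, F.ν, hv, sub_self]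
  have e5 := hp s (s + c₂) hs p1 (by linarith) le_rfl _ e4
  rw [map_sub, sub_eq_zero, P.ρ_comp _ _ _ _ _ _ _ (by linarith), e.ν_nat _ _ hs p1] at e5
  rw [← X.ρ_comp s (s + c₂ + c₁) t hs p2 (by linarith) (by linarith) hst, ← hw,
    e.α_nat _ _ hs p2, e5]
  exact (e.exP _ hs _).2 ⟨_, rfl⟩

end Ex5Hom

end Vale.Agent.P216.H901
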